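import Vale.Agent.P297.H521.Param
import Vale.Agent.P297.H637.PL

/-!
Places of an algebraically closed field over a closed subfield.
-/

set_option linter.unusedSectionVars false
set_option linter.style.haveILetI false
set_option linter.unusedSimpArgs false

open IntermediateField Polynomial

namespace Vale.Agent.P297.H288.K2

open Vale.Agent.P297 Vale.Agent.P297.Gen Vale.Agent.P297.H72 Vale.Agent.P297.H521

variable {N : Type} [Field N] [Algebra ℂ N] [IsAlgClosed N]

open scoped IntermediateField.algebraAdjoinAdjoin in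
theorem alg_adjoin {M : IntermediateField ℂ N} {k v : N}
    (h : IsAlgebraic (IntermediateField.adjoin M {k}) v) : IsAlgebraic (Algebra.adjoin M {k}) v := by
  letI : Field (IntermediateField.adjoin M {k}) := inferInstance
  haveI : Algebra.IsAlgebraic (Algebra.adjoin M {k}) (IntermediateField.adjoin M {k}) :=
    inferInstance
  haveI : IsScalarTower (Algebra.adjoin M {k}) (IntermediateField.adjoin M {k}) N := inferInstance
  exact IsAlgebraic.restrictScalars (Algebra.adjoin M {k}) h

/-- **A place of `N`, trivial on a closed subfield `M ≥ F`, with a given value at `k ∉ F`.** -/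
theorem exists_place {F : IntermediateField ℂ N} (hF : ∀ u, IsAlgebraic F u → u ∈ F) {k a : N}
    (hk : k ∉ F) (ha : a ∈ F) : ∃ (M : IntermediateField ℂ N) (V : Plc M N)
      (hFM : F ≤ M), (∀ u, IsAlgebraic M u → u ∈ M) ∧ k ∉ M ∧ V.Val k ⟨a, hFM ha⟩ := by
  obtain ⟨M, hM, hFM, h1, -, h2, -⟩ := exists_hyper' hF hk hk
  haveI : IsAlgClosed M := by
    refine IsAlgClosed.of_exists_root _ fun p _ hirr => ?_
    obtain ⟨r, hr⟩ := exists_root_mem M hM p hirr.natDegree_pos
    exact ⟨r, hr⟩
  have ht : Transcendental M k := fun h => h1 (hM _ h)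
  obtain ⟨V, h3, h4⟩ := exists_plc ht (fun x => alg_adjoin (h2 x)) (⟨a, hFM ha⟩ : M)
  exact ⟨M, V, hFM, hM, h1, h3, h4⟩

end Vale.Agent.P297.H288.K2
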