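import Vale.Agent.P297.H279.K2.Alg

/-!
Chords: pairs of generic points over the same `y` in line with a point of the nodal plane cubic,
on a line of the cubic surface of the pencil.
-/

set_option linter.unusedSectionVars false

namespace Vale.Agent.P297.H288.K2

open Vale.Agent.P297.H160.Z2Irr Vale.Agent.P297.H279.K2

/-- **A chord**: `w`, `w'` generic points over the same `y`, the point of parameter `t` of the nodal
cubic is in line with them, and the line is on the cubic surface `Kf l = 0`. -/
structure IsChord {N : Type} [Field N] [Algebra ℂ N] (P : Par) (l t : N) (w w' : Fin 5 → N) :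
    Prop where
  gen : GenS P w
  gen' : GenS P w'
  y_eq : w' 2 = w 2
  line : ∀ α β : N,
    (kd P (w 2)).Kf l (KD.lc α (vec w) β ((kd P (w 2)).gam 1 t)) = 0
  thd : ∃ c : N, c ≠ 0 ∧ (kd P (w 2)).zz (vec w) ((kd P (w 2)).gam 1 t) = fun i => c * vec w' i

end Vale.Agent.P297.H288.K2
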