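import Vale.Agent.P297.H288.K2.Lead

/-!
A chord is not on the cubic surface `l = ∞`.
-/

set_option linter.unusedSectionVars false
set_option linter.style.haveILetI false
set_option linter.unusedSimpArgs false

open IntermediateField Polynomial

namespace Vale.Agent.P297.Z2K

open Vale.Agent.P297 Vale.Agent.P297.Gen Vale.Agent.P297.H72 Vale.Agent.P297.H521
open Vale.Agent.P297.H160.Z2Irr Vale.Agent.P297.H279.K2 Vale.Agent.P297.H288.K2

variable {N : Type} [Field N] [Algebra ℂ N] [IsAlgClosed N] {P : Par}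

section pv

variable {M : IntermediateField ℂ N} {V : Plc M N} {D : KD N} {k τ T S t : N}

theorem C1_xg (x : Fin 4 → N) (t : N) : D.C1 x (D.gam 1 t) =
    D.e * (KD.at' D t * x 1 ^ 2 + 2 * x 3 * x 1 * (t * KD.dt D t) - t ^ 2 * KD.at' D t * x 0 ^ 2 -
      2 * x 2 * x 0 * KD.dt D t) +
    (x 0 * (t ^ 2 * KD.at' D t) + KD.dt D t * x 2 - x 1 * KD.at' D t - t * KD.dt D t * x 3 +
      (1 + D.A + D.B) * (x 0 * (t * KD.dt D t) + KD.dt D t * x 1) -
      2 * D.B * x 1 * (t * KD.dt D t) - 2 * D.A * KD.dt D t * x 0) * D.L x := by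
  rw [KD.C1, KD.L_gam, mul_zero, add_zero, KD.gam_one]
  obtain ⟨l, hl⟩ : ∃ l, l = D.L x := ⟨_, rfl⟩
  obtain ⟨d, hd⟩ : ∃ d, d = KD.dt D t := ⟨_, rfl⟩
  obtain ⟨α, hα⟩ : ∃ α, α = KD.at' D t := ⟨_, rfl⟩
  rw [← hl, ← hd, ← hα]
  simp only [KD.C31, KD.b2, Matrix.cons_val_zero, Matrix.cons_val_one, Matrix.cons_val]
  ring

theorem C1_gx (x : Fin 4 → N) (t : N) (hx : x 0 = 1) : D.C1 (D.gam 1 t) x =
    KD.dt D t * (D.e * (x 3 * (t ^ 2 * KD.dt D t) + 2 * KD.at' D t * t * x 1 -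
      x 2 * KD.dt D t - 2 * t ^ 2 * KD.at' D t) +
    (t * (t - 1) * KD.at' D t + KD.dt D t * ((1 + D.A + D.B) * t - D.B * t ^ 2 - D.A)) *
      D.L x) := by
  rw [KD.C1, KD.L_gam, mul_zero, add_zero, KD.gam_one]
  obtain ⟨l, hl⟩ : ∃ l, l = D.L x := ⟨_, rfl⟩
  obtain ⟨d, hd⟩ : ∃ d, d = KD.dt D t := ⟨_, rfl⟩
  obtain ⟨α, hα⟩ : ∃ α, α = KD.at' D t := ⟨_, rfl⟩
  rw [← hl, ← hd, ← hα]
  simp only [KD.C31, KD.Q2, Matrix.cons_val_zero, Matrix.cons_val_one, Matrix.cons_val, hx]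
  ring

/-- the value of `C1 x γ` for finite `t` -/
theorem PV.C1_fin {t0 : N} (h : PV V D k T S) (hτ : τ * k = T) (ht : VN V t t0) :
    VN V (k ^ 2 * D.C1 ![1, k, S * k, τ] (D.gam 1 t))
      (-(D.A ^ 2 * D.U ^ 2 * (t0 * KD.dt D t0))) := by
  have hL := h.L hτ
  obtain ⟨hU, hV, ha, hc, hA, hB, he, hm, hk, hT, hS⟩ := h
  have hd : VN V (KD.dt D t) (KD.dt D t0) := by
    unfold KD.dt
    repeat' (first | assumption | exact VN.one | exact VN.zero | exact VN.const _ |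
      exact VN.ofNat _ | apply VN.add | apply VN.sub | apply VN.mul | apply VN.neg | apply VN.pow)
  have hα : VN V (KD.at' D t) (KD.at' D t0) := by
    unfold KD.at'
    repeat' (first | assumption | exact VN.one | exact VN.zero | exact VN.const _ |
      exact VN.ofNat _ | apply VN.add | apply VN.sub | apply VN.mul | apply VN.neg | apply VN.pow)
  rw [C1_xg]
  obtain ⟨l, hl⟩ : ∃ l, l = D.L ![1, k, S * k, τ] := ⟨_, rfl⟩
  obtain ⟨d, hd'⟩ : ∃ d, d = KD.dt D t := ⟨_, rfl⟩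
  obtain ⟨α, hα'⟩ : ∃ α, α = KD.at' D t := ⟨_, rfl⟩
  obtain ⟨d0, hd0⟩ : ∃ d, d = KD.dt D t0 := ⟨_, rfl⟩
  obtain ⟨α0, hα0⟩ : ∃ α, α = KD.at' D t0 := ⟨_, rfl⟩
  rw [← hl] at hL
  rw [← hd', ← hd0] at hd
  rw [← hα', ← hα0] at hα
  rw [← hl, ← hd', ← hα', ← hd0]
  simp only [Matrix.cons_val_zero, Matrix.cons_val_one, Matrix.cons_val]
  obtain ⟨L', hL'⟩ : ∃ l', l' = k * l := ⟨_, rfl⟩
  rw [← hL'] at hL
  have e : k ^ 2 * (D.e * (α * k ^ 2 + 2 * τ * k * (t * d) - t ^ 2 * α * 1 ^ 2 -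
      2 * (S * k) * 1 * d) + (1 * (t ^ 2 * α) + d * (S * k) - k * α - t * d * τ +
      (1 + D.A + D.B) * (1 * (t * d) + d * k) - 2 * D.B * k * (t * d) - 2 * D.A * d * 1) * l) =
      D.e * k ^ 2 * (α * k ^ 2 + 2 * T * (t * d) - t ^ 2 * α - 2 * S * k * d) +
      (k * (t ^ 2 * α) + d * S * k ^ 2 - k ^ 2 * α - t * d * T +
      (1 + D.A + D.B) * (t * d + d * k) * k - 2 * D.B * k ^ 2 * (t * d) - 2 * D.A * d * k) *
        L' := by
    rw [hL', ← hτ]
    ring
  rw [e]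
  refine VN.cast (a := _) (by
      repeat' (first | assumption | exact VN.one | exact VN.zero | exact VN.const _ |
        exact VN.ofNat _ | apply VN.add | apply VN.sub | apply VN.mul | apply VN.neg | apply VN.pow)) ?_
  ring

/-- the value of `C1 γ x / D'` for finite `t` -/
theorem PV.C1_fin' {t0 : N} (h : PV V D k T S) (hτ : τ * k = T) (ht : VN V t t0) :
    VN V (k * (D.e * (τ * (t ^ 2 * KD.dt D t) + 2 * KD.at' D t * t * k -
      S * k * KD.dt D t - 2 * t ^ 2 * KD.at' D t) +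
    (t * (t - 1) * KD.at' D t + KD.dt D t * ((1 + D.A + D.B) * t - D.B * t ^ 2 - D.A)) *
      D.L ![1, k, S * k, τ]))
      (-(D.A * (D.e * t0 ^ 2 * KD.dt D t0 + D.U ^ 2 * (t0 * (t0 - 1) * KD.at' D t0 +
        KD.dt D t0 * ((1 + D.A + D.B) * t0 - D.B * t0 ^ 2 - D.A))))) := by
  have hL := h.L hτ
  obtain ⟨hU, hV, ha, hc, hA, hB, he, hm, hk, hT, hS⟩ := h
  have hd : VN V (KD.dt D t) (KD.dt D t0) := by
    unfold KD.dt
    repeat' (first | assumption | exact VN.one | exact VN.zero | exact VN.const _ |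
      exact VN.ofNat _ | apply VN.add | apply VN.sub | apply VN.mul | apply VN.neg | apply VN.pow)
  have hα : VN V (KD.at' D t) (KD.at' D t0) := by
    unfold KD.at'
    repeat' (first | assumption | exact VN.one | exact VN.zero | exact VN.const _ |
      exact VN.ofNat _ | apply VN.add | apply VN.sub | apply VN.mul | apply VN.neg | apply VN.pow)
  obtain ⟨l, hl⟩ : ∃ l, l = D.L ![1, k, S * k, τ] := ⟨_, rfl⟩
  obtain ⟨d, hd'⟩ : ∃ d, d = KD.dt D t := ⟨_, rfl⟩
  obtain ⟨α, hα'⟩ : ∃ α, α = KD.at' D t := ⟨_, rfl⟩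
  obtain ⟨d0, hd0⟩ : ∃ d, d = KD.dt D t0 := ⟨_, rfl⟩
  obtain ⟨α0, hα0⟩ : ∃ α, α = KD.at' D t0 := ⟨_, rfl⟩
  rw [← hl] at hL
  rw [← hd', ← hd0] at hd
  rw [← hα', ← hα0] at hα
  rw [← hl, ← hd', ← hα', ← hd0, ← hα0]
  obtain ⟨L', hL'⟩ : ∃ l', l' = k * l := ⟨_, rfl⟩
  rw [← hL'] at hL
  have e : k * (D.e * (τ * (t ^ 2 * d) + 2 * α * t * k - S * k * d - 2 * t ^ 2 * α) +
      (t * (t - 1) * α + d * ((1 + D.A + D.B) * t - D.B * t ^ 2 - D.A)) * l) =
      D.e * (T * (t ^ 2 * d) + 2 * α * t * k * k - S * k * d * k - 2 * t ^ 2 * α * k) +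
      (t * (t - 1) * α + d * ((1 + D.A + D.B) * t - D.B * t ^ 2 - D.A)) * L' := by
    rw [hL', ← hτ]
    ring
  rw [e]
  refine VN.cast (a := _) (by
      repeat' (first | assumption | exact VN.one | exact VN.zero | exact VN.const _ |
        exact VN.ofNat _ | apply VN.add | apply VN.sub | apply VN.mul | apply VN.neg | apply VN.pow)) ?_
  ring

/-- the value of `C1 x γ` for infinite `t` -/
theorem PV.C1_infty {u : N} (h : PV V D k T S) (hτ : τ * k = T) (hu : VN V u 0) :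
    VN V (k ^ 2 * D.C1 ![1, k, S * k, τ] (D.gam u 1)) (D.A ^ 2 * D.U ^ 2 * D.V ^ 2) := by
  have hL := h.L hτ
  obtain ⟨hU, hV, ha, hc, hA, hB, he, hm, hk, hT, hS⟩ := h
  obtain ⟨l, hl⟩ : ∃ l, l = D.L ![1, k, S * k, τ] := ⟨_, rfl⟩
  rw [KD.C1, KD.L_gam, mul_zero, add_zero, ← hl]
  rw [← hl] at hL
  obtain ⟨L', hL'⟩ : ∃ l', l' = k * l := ⟨_, rfl⟩
  rw [← hL'] at hL
  have e : D.gam u 1 = ![u * (D.U ^ 2 * u ^ 2 - D.V ^ 2), D.U ^ 2 * u ^ 2 - D.V ^ 2,
      D.a * D.U * u + D.c * D.V, u ^ 2 * (D.a * D.U * u + D.c * D.V)] := by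
    funext i
    fin_cases i <;> simp [KD.gam]
  rw [e]
  obtain ⟨d, hd⟩ : ∃ d, d = D.U ^ 2 * u ^ 2 - D.V ^ 2 := ⟨_, rfl⟩
  obtain ⟨α, hα⟩ : ∃ α, α = D.a * D.U * u + D.c * D.V := ⟨_, rfl⟩
  rw [← hd, ← hα]
  have hdv : VN V d (-D.V ^ 2) := by
    rw [hd]
    refine VN.cast (a := _) (by
        repeat' (first | assumption | exact VN.one | exact VN.zero | exact VN.const _ |
          exact VN.ofNat _ | apply VN.add | apply VN.sub | apply VN.mul | apply VN.neg | apply VN.pow)) ?_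
    ring
  have hαv : VN V α (D.c * D.V) := by
    rw [hα]
    refine VN.cast (a := _) (by
        repeat' (first | assumption | exact VN.one | exact VN.zero | exact VN.const _ |
          exact VN.ofNat _ | apply VN.add | apply VN.sub | apply VN.mul | apply VN.neg | apply VN.pow)) ?_
    ring
  have e' : k ^ 2 * (D.e * KD.C31 ![1, k, S * k, τ] ![u * d, d, α, u ^ 2 * α] +
      D.b2 ![1, k, S * k, τ] ![u * d, d, α, u ^ 2 * α] * l) =
      D.e * k ^ 2 * (u ^ 2 * α * k ^ 2 + 2 * T * d - α - 2 * S * k * (u * d)) +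
      (k * α + u * d * S * k ^ 2 - k ^ 2 * (u ^ 2 * α) - d * T +
      (1 + D.A + D.B) * (d * k + u * d * k ^ 2) - 2 * D.B * k ^ 2 * d - 2 * D.A * (u * d) * k) *
        L' := by
    rw [hL', ← hτ]
    simp only [KD.C31, KD.b2, Matrix.cons_val_zero, Matrix.cons_val_one, Matrix.cons_val]
    ring
  rw [e']
  refine VN.cast (a := _) (by
      repeat' (first | assumption | exact VN.one | exact VN.zero | exact VN.const _ |
        exact VN.ofNat _ | apply VN.add | apply VN.sub | apply VN.mul | apply VN.neg | apply VN.pow)) ?_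
  ring

end pv

theorem upv_ne {y : N} (hy : Transcendental ℂ y) : (kd P y).U + (kd P y).V ≠ 0 := by
  obtain ⟨M, V, hz, hy0, hU, hV, ha, hc, hA, hB, he, hm, hd⟩ := exists_inf hy P
  intro h
  have h2 : (2 : N) ≠ 0 := by
    haveI : CharZero N := charZero_of_injective_algebraMap (algebraMap ℂ N).injective
    exact two_ne_zero
  have v : VN V ((kd P y).U * y⁻¹ + (kd P y).V * y⁻¹) 2 := VN.cast (hU.add hV) (by norm_num)
  refine v.ne_zero h2 ?_
  rw [← add_mul, h, zero_mul]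

theorem umv_ne {y : N} (huv : P.u ≠ P.v) : (kd P y).U - (kd P y).V ≠ 0 := by
  have h : (kd P y).U - (kd P y).V = algebraMap ℂ N (P.u - P.v) := by
    change (y + algebraMap ℂ N P.u) - (y + algebraMap ℂ N P.v) = _
    rw [map_sub]
    ring
  rw [h]
  exact (_root_.map_ne_zero _).2 (sub_ne_zero.2 huv)

theorem linf_et {y k : N} {M : IntermediateField ℂ N} {V : Plc M N} {w : Fin 5 → N}
    (hk0 : k ≠ 0) (hy : Transcendental ℂ y) (hFM : cl0 {y} ≤ M) (h0 : P.P0 ≠ 0)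
    (hQ : P.Q0 ≠ P.Q1) (huv : P.u ≠ P.v)
    (hw1 : w 1 = k) (hkv : VN V k 0)
    (h4 : VN V (k * w 4) (-(kd P y).A)) (h3 : VN V (w 3 / k) (-(kd P y).A)) (t : N)
    (e1 : (kd P y).C1 (vec w) ((kd P y).gam 1 t) = 0)
    (e2 : (kd P y).C1 ((kd P y).gam 1 t) (vec w) = 0) : False := by
  have pv := pv_of (P := P) hFM hkv h4 h3
  have nA := A_ne (P := P) h0 hy
  have nU := U_ne' (P := P) hy
  have nV := V_ne' (P := P) hy
  rw [vec_et hk0 hw1] at e1 e2
  rcases vn_or (V := V) t with ⟨t0, ht⟩ | ⟨ht0, ht⟩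
  · -- finite `t`
    have v1 := (pv.C1_fin rfl ht).eq_zero (by rw [e1, mul_zero])
    have hnat := at_ne (P := P) hQ hy (t := t0)
    have h00 : t0 = 0 ∨ KD.dt (kd P y) t0 = 0 := by
      rw [neg_eq_zero, mul_eq_zero] at v1
      rcases v1 with v1 | v1
      · exact absurd v1 (mul_ne_zero (pow_ne_zero 2 nA) (pow_ne_zero 2 nU))
      · exact mul_eq_zero.1 v1
    have v2 := pv.C1_fin' rfl ht
    have key : -((kd P y).A * ((kd P y).e * t0 ^ 2 * KD.dt (kd P y) t0 +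
        (kd P y).U ^ 2 * (t0 * (t0 - 1) * KD.at' (kd P y) t0 +
        KD.dt (kd P y) t0 * ((1 + (kd P y).A + (kd P y).B) * t0 - (kd P y).B * t0 ^ 2 -
        (kd P y).A)))) ≠ 0 := by
      rcases h00 with h | h
      · rw [h]
        have e : KD.dt (kd P y) 0 = (kd P y).U ^ 2 := by
          unfold KD.dt
          ring
        rw [e]
        have e' : -((kd P y).A * ((kd P y).e * 0 ^ 2 * (kd P y).U ^ 2 +
            (kd P y).U ^ 2 * (0 * (0 - 1) * KD.at' (kd P y) 0 +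
            (kd P y).U ^ 2 * ((1 + (kd P y).A + (kd P y).B) * 0 - (kd P y).B * 0 ^ 2 -
            (kd P y).A)))) = (kd P y).A ^ 2 * (kd P y).U ^ 4 := by ring
        rw [e']
        exact mul_ne_zero (pow_ne_zero 2 nA) (pow_ne_zero 4 nU)
      · have ht00 : t0 ≠ 0 := by
          rintro rfl
          unfold KD.dt at h
          apply pow_ne_zero 2 nU
          linear_combination h
        have ht01 : t0 - 1 ≠ 0 := by
          intro h1
          have h2 : t0 = 1 := sub_eq_zero.1 h1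
          rw [h2] at h
          unfold KD.dt at h
          apply mul_ne_zero (umv_ne (P := P) (y := y) huv) (upv_ne (P := P) hy)
          linear_combination h
        rw [h]
        have e' : -((kd P y).A * ((kd P y).e * t0 ^ 2 * 0 +
            (kd P y).U ^ 2 * (t0 * (t0 - 1) * KD.at' (kd P y) t0 +
            0 * ((1 + (kd P y).A + (kd P y).B) * t0 - (kd P y).B * t0 ^ 2 -
            (kd P y).A)))) = -((kd P y).A * (kd P y).U ^ 2 * (t0 * (t0 - 1) *
            KD.at' (kd P y) t0)) := by ring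
        rw [e']
        exact neg_ne_zero.2 (mul_ne_zero (mul_ne_zero nA (pow_ne_zero 2 nU))
          (mul_ne_zero (mul_ne_zero ht00 ht01) (hnat h)))
    have h5 := right_ne_zero_of_mul (v2.ne_zero key)
    rw [C1_gx _ _ rfl] at e2
    have hd : KD.dt (kd P y) t = 0 := by
      refine (mul_eq_zero.1 e2).resolve_right ?_
      exact h5
    have hα := at_ne (P := P) hQ hy (t := t) hd
    have htv : t0 ≠ 0 := by
      have hd' : VN V (KD.dt (kd P y) t) (KD.dt (kd P y) t0) := by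
        have hU := pv.hU
        have hV := pv.hV
        unfold KD.dt
        repeat' (first | assumption | exact VN.one | exact VN.zero | exact VN.const _ |
          exact VN.ofNat _ | apply VN.add | apply VN.sub | apply VN.mul | apply VN.neg | apply VN.pow)
      have h6 := hd'.eq_zero hd
      rintro rfl
      unfold KD.dt at h6
      apply pow_ne_zero 2 nU
      linear_combination h6
    rw [C1_xg, hd] at e1
    simp only [Matrix.cons_val_zero, Matrix.cons_val_one, Matrix.cons_val] at e1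
    have hL := pv.L rfl
    obtain ⟨l, hl⟩ : ∃ l, l = (kd P y).L ![1, k, w 3 / k * k, w 4] := ⟨_, rfl⟩
    rw [← hl] at e1 hL
    have e3 : (kd P y).e * (k ^ 2 - t ^ 2) + (t ^ 2 - k) * l = 0 := by
      apply (mul_eq_zero.1 (?_ : KD.at' (kd P y) t * _ = 0)).resolve_left hα
      linear_combination e1
    have he := pv.he
    have hk := pv.hk
    obtain ⟨L', hL'⟩ : ∃ l', l' = k * l := ⟨_, rfl⟩
    rw [← hL'] at hL
    have v3 : VN V (k * (kd P y).e * (k ^ 2 - t ^ 2) + (t ^ 2 - k) * L')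
        (-(t0 ^ 2 * ((kd P y).A * (kd P y).U ^ 2))) := by
      refine VN.cast (a := _) (by
          repeat' (first | assumption | exact VN.one | exact VN.zero | exact VN.const _ |
            exact VN.ofNat _ | apply VN.add | apply VN.sub | apply VN.mul | apply VN.neg | apply VN.pow)) ?_
      ring
    refine v3.ne_zero (neg_ne_zero.2 (mul_ne_zero (pow_ne_zero 2 htv)
      (mul_ne_zero nA (pow_ne_zero 2 nU)))) ?_
    rw [hL']
    linear_combination k * e3
  · -- infinite `t`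
    have v := pv.C1_infty rfl ht
    refine right_ne_zero_of_mul (v.ne_zero (mul_ne_zero (mul_ne_zero (pow_ne_zero 2 nA)
      (pow_ne_zero 2 nU)) (pow_ne_zero 2 nV))) ?_
    have e3 := KD.gam_smul (kd P y) t⁻¹ 1 t
    rw [mul_one, inv_mul_cancel₀ ht0] at e3
    rw [e3]
    have e4 : ∀ (x z : Fin 4 → N) (c : N), (kd P y).C1 x (fun i => c * z i) =
        c * (kd P y).C1 x z := by
      intro x z c
      simp only [KD.C1, KD.C31, KD.b2, KD.L]
      ring
    rw [e4, e1, mul_zero]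

/-- **(l ≠ ∞)** -/
theorem linf (hGI : HGI P N) (h0 : P.P0 ≠ 0) (hQ : P.Q0 ≠ P.Q1) (huv : P.u ≠ P.v)
    {w : Fin 5 → N} (hw : GenS P w) {t : N}
    (a1 : (kd P (w 2)).C1 (vec w) ((kd P (w 2)).gam 1 t) = 0)
    (a2 : (kd P (w 2)).C1 ((kd P (w 2)).gam 1 t) (vec w) = 0) : False := by
  have hyk := hw.ind_yk h0
  obtain ⟨M, V, w', hFM, hM, hw', e1, e2, hkv, h4, h3, h33⟩ := exists_et (P := P) h0 hyk
  obtain ⟨g, hg1, hg2⟩ := hGI w w' hw hw' e2.symm
  have hk0 : w 1 ≠ 0 := by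
    rintro h1
    have h2 := hyk.transcendental 1
    simp only [Matrix.cons_val_one, Matrix.cons_val_fin_one] at h2
    rw [h1] at h2
    exact h2 isAlgebraic_zero
  have hgy : g (w 2) = w 2 := hg1 _ (subset_cl0 _ rfl)
  have h1' := congrArg g a1
  rw [map_zero, tr_C1, tr_vec g hg2, tr_gam, hgy, map_one] at h1'
  have h2' := congrArg g a2
  rw [map_zero, tr_C1, tr_vec g hg2, tr_gam, hgy, map_one] at h2'
  exact linf_et hk0 (trans_y h0 hw) hFM h0 hQ huv e1 hkv h4 h3 (g t) h1' h2'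

end Vale.Agent.P297.Z2K
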