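import Vale.Agent.P297.H288.K2.VN
import Vale.Agent.P297.H279.K2.Alg
import Vale.Agent.P297.H160.Z2Gen
import Vale.Agent.P297.H721.PtMore

/-!
The place `k → 0` of the curve over `y`: the point which goes to `(0 : 0 : 0 : 1)`.
-/

set_option linter.unusedSectionVars false
set_option linter.style.haveILetI false
set_option linter.unusedSimpArgs false

open IntermediateField Polynomial

namespace Vale.Agent.P297.Z2K

open Vale.Agent.P297 Vale.Agent.P297.Gen Vale.Agent.P297.H72 Vale.Agent.P297.H521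
open Vale.Agent.P297.H160.Z2Irr Vale.Agent.P297.H279.K2 Vale.Agent.P297.H288.K2

section mem

variable {N : Type} [Field N] [Algebra ℂ N] {P : Par} {F : IntermediateField ℂ N} {y : N}

theorem cM (r : ℂ) : algebraMap ℂ N r ∈ F := IntermediateField.algebraMap_mem F r

theorem two_mem' : (2 : N) ∈ F := by
  have h := cM (F := F) (2 : ℂ)
  rwa [map_ofNat] at h

theorem mem_fU (hy : y ∈ F) : fU P y ∈ F := add_mem hy (cM _)

theorem mem_fV (hy : y ∈ F) : fV P y ∈ F := add_mem hy (cM _)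

theorem mem_fa (hy : y ∈ F) : fa P y ∈ F := add_mem (mul_mem two_mem' hy) (cM _)

theorem mem_fc (hy : y ∈ F) : fc P y ∈ F := add_mem (mul_mem two_mem' hy) (cM _)

theorem mem_fe (hy : y ∈ F) : fe P y ∈ F :=
  add_mem (sub_mem (cM _) (pow_mem hy 2)) (mul_mem (cM _) hy)

theorem mem_fm (hy : y ∈ F) : fm P y ∈ F :=
  add_mem (sub_mem (cM _) (pow_mem hy 2)) (mul_mem (cM _) hy)

theorem mem_A (hy : y ∈ F) : algebraMap ℂ N P.P0 / fU P y ∈ F := div_mem (cM _) (mem_fU hy)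

theorem mem_B (hy : y ∈ F) : algebraMap ℂ N P.P2 / fV P y ∈ F := div_mem (cM _) (mem_fV hy)

theorem mem_f2 (hy : y ∈ F) : f2 P y ∈ F :=
  add_mem (add_mem (mem_fe hy) (mul_mem (mem_B hy) (pow_mem (mem_fU hy) 2)))
    (mul_mem (mem_A hy) (pow_mem (mem_fV hy) 2))

theorem mem_f3 (hy : y ∈ F) : f3 P y ∈ F :=
  sub_mem (add_mem (add_mem (mem_fm hy) (mul_mem (mul_mem (mem_A hy) (mem_fc hy)) (mem_fV hy)))
    (mul_mem (mul_mem (mem_B hy) (mem_fa hy)) (mem_fU hy)))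
    (pow_mem (add_mem (mul_mem (mem_A hy) (mem_fV hy)) (mul_mem (mem_B hy) (mem_fU hy))) 2)

end mem

variable {N : Type} [Field N] [Algebra ℂ N] [IsAlgClosed N] {P : Par}

/-- values of natural expressions -/
theorem vn_fun {M : IntermediateField ℂ N} {V : Plc M N}
    {q : ∀ {A : Type} [CommRing A], A → A → A → A → A → A → A → A → A → A}
    (hq : ∀ {A B : Type} [CommRing A] [CommRing B] (g : A →+* B) (x1 x2 x3 x4 x5 x6 x7 x8 x9 : A),
      g (q x1 x2 x3 x4 x5 x6 x7 x8 x9) =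
        q (g x1) (g x2) (g x3) (g x4) (g x5) (g x6) (g x7) (g x8) (g x9))
    {x1 x2 x3 x4 x5 x6 x7 x8 x9 a1 a2 a3 a4 a5 a6 a7 a8 a9 : N}
    (h1 : VN V x1 a1) (h2 : VN V x2 a2) (h3 : VN V x3 a3) (h4 : VN V x4 a4) (h5 : VN V x5 a5)
    (h6 : VN V x6 a6) (h7 : VN V x7 a7) (h8 : VN V x8 a8) (h9 : VN V x9 a9) :
    VN V (q x1 x2 x3 x4 x5 x6 x7 x8 x9) (q a1 a2 a3 a4 a5 a6 a7 a8 a9) := by
  obtain ⟨r1, rfl, rfl⟩ := h1.ex
  obtain ⟨r2, rfl, rfl⟩ := h2.ex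
  obtain ⟨r3, rfl, rfl⟩ := h3.ex
  obtain ⟨r4, rfl, rfl⟩ := h4.ex
  obtain ⟨r5, rfl, rfl⟩ := h5.ex
  obtain ⟨r6, rfl, rfl⟩ := h6.ex
  obtain ⟨r7, rfl, rfl⟩ := h7.ex
  obtain ⟨r8, rfl, rfl⟩ := h8.ex
  obtain ⟨r9, rfl, rfl⟩ := h9.ex
  have h := VN.of (V := V) (q r1 r2 r3 r4 r5 r6 r7 r8 r9)
  have e1 := hq V.V.subtype r1 r2 r3 r4 r5 r6 r7 r8 r9
  have e2 := hq ((M.val : M →+* N).comp V.p) r1 r2 r3 r4 r5 r6 r7 r8 r9
  exact e1 ▸ e2 ▸ h

/-- The small root of the quartic at the place `k → 0`. -/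
theorem exists_et0 (h0 : P.P0 ≠ 0) {y k : N} {M : IntermediateField ℂ N} {V : Plc M N}
    (hk0 : k ≠ 0) (hy : y ∈ M) (hkv : VN V k 0) :
    ∃ Y Z : N, Y ≠ 0 ∧ Y = k ^ 3 * Z ∧ VN V Z 0 ∧ fQ P Y⁻¹ k y = 0 := by
  have hU : VN V (fU P y) (fU P y) := VN.self (mem_fU hy)
  have hV : VN V (fV P y) (fV P y) := VN.self (mem_fV hy)
  have ha : VN V (fa P y) (fa P y) := VN.self (mem_fa hy)
  have hc : VN V (fc P y) (fc P y) := VN.self (mem_fc hy)
  have he : VN V (fe P y) (fe P y) := VN.self (mem_fe hy)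
  have hm : VN V (fm P y) (fm P y) := VN.self (mem_fm hy)
  obtain ⟨e3, he3⟩ : ∃ e, e = q3 (fU P y) (fV P y) (fa P y) (fc P y) (fe P y) (fm P y)
    (algebraMap ℂ N P.P0) (algebraMap ℂ N P.P2) k := ⟨_, rfl⟩
  obtain ⟨e2, he2⟩ : ∃ e, e = q2 (fU P y) (fV P y) (fa P y) (fc P y) (fe P y) (fm P y)
    (algebraMap ℂ N P.P0) (algebraMap ℂ N P.P2) k := ⟨_, rfl⟩
  obtain ⟨e1, he1⟩ : ∃ e, e = q1 (fU P y) (fV P y) (fa P y) (fc P y) (fe P y) (fm P y)
    (algebraMap ℂ N P.P0) (algebraMap ℂ N P.P2) k := ⟨_, rfl⟩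
  obtain ⟨e0, he0⟩ : ∃ e, e = b0 (fU P y) (fV P y) (fa P y) (fc P y) (fe P y) (fm P y)
    (algebraMap ℂ N P.P0) (algebraMap ℂ N P.P2) := ⟨_, rfl⟩
  have hP := VN.const (V := V) P.P0
  have hR := VN.const (V := V) P.P2
  have h3 : VN V e3 (algebraMap ℂ N P.P0 ^ 2) := by
    rw [he3]
    refine VN.cast (vn_fun (fun g => map_q3 g) hU hV ha hc he hm hP hR hkv) ?_
    unfold q3 c30
    ring
  have h2 : ∃ b, VN V e2 b := by
    rw [he2]
    exact ⟨_, vn_fun (fun g => map_q2 g) hU hV ha hc he hm hP hR hkv⟩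
  have h1 : ∃ b, VN V e1 b := by
    rw [he1]
    exact ⟨_, vn_fun (fun g => map_q1 g) hU hV ha hc he hm hP hR hkv⟩
  have h0' : ∃ b, VN V e0 b := by
    rw [he0]
    unfold b0
    exact ⟨_, by
        repeat' (first | assumption | exact VN.one | exact VN.zero | exact VN.const _ |
          exact VN.ofNat _ | apply VN.add | apply VN.sub | apply VN.mul | apply VN.neg | apply VN.pow)⟩
  obtain ⟨b2, h2⟩ := h2
  obtain ⟨b1, h1⟩ := h1
  obtain ⟨b0', h0'⟩ := h0'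
  have hP0 : algebraMap ℂ N P.P0 ^ 2 ≠ 0 := pow_ne_zero 2 ((_root_.map_ne_zero _).2 h0)
  have hk4 : VN V (k ^ 4) 0 := (hkv.pow 4).cast (by simp)
  obtain ⟨Y, hY, hYeq⟩ := exists_small_root hk4 h3 hP0 h2 h1 (h0'.pow 2)
  have hin : VN V (e3 + e2 * Y + e1 * Y ^ 2 + e0 ^ 2 * Y ^ 3) (algebraMap ℂ N P.P0 ^ 2) := by
    refine VN.cast (((h3.add (h2.mul hY)).add (h1.mul (hY.pow 2))).add
      ((h0'.pow 2).mul (hY.pow 3))) ?_
    ring
  obtain ⟨inn, hinn⟩ : ∃ i, i = e3 + e2 * Y + e1 * Y ^ 2 + e0 ^ 2 * Y ^ 3 := ⟨_, rfl⟩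
  rw [← hinn] at hin
  have hin0 : inn ≠ 0 := hin.ne_zero hP0
  refine ⟨Y, -k / inn, ?_, ?_, ?_, ?_⟩
  · intro h
    rw [h] at hYeq
    apply hk0
    have : k ^ 4 = 0 := by linear_combination hYeq
    exact pow_eq_zero_iff (by norm_num) |>.1 this
  · field_simp
    rw [hinn]
    linear_combination hYeq
  · exact (hkv.neg.div hin hP0).cast (by simp)
  · have hY0 : Y ≠ 0 := by
      intro h
      rw [h] at hYeq
      apply hk0
      have : k ^ 4 = 0 := by linear_combination hYeq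
      exact pow_eq_zero_iff (by norm_num) |>.1 this
    unfold fQ qf
    rw [← he3, ← he2, ← he1, ← he0]
    field_simp
    linear_combination hYeq

/-- **The place `k → 0`**: over it the coordinate `x` of one of the points is infinite. -/
theorem exists_et (h0 : P.P0 ≠ 0) {y k : N} (hyk : AlgebraicIndependent ℂ ![y, k]) :
    ∃ (M : IntermediateField ℂ N) (V : Plc M N) (w : Fin 5 → N), cl0 {y} ≤ M ∧
      (∀ u, IsAlgebraic M u → u ∈ M) ∧ GenS P w ∧ w 1 = k ∧ w 2 = y ∧ VN V k 0 ∧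
      VN V (k * w 4) (-(kd P y).A) ∧ VN V (w 3 / k) (-(kd P y).A) ∧
      VN V ((w 3 / k + (kd P y).A) / k) (1 + (kd P y).B) := by
  have hkF : k ∉ cl0 ({y} : Set N) := by
    intro h
    exact (H288.indep_iff.1 hyk).2 h
  have hk0 : k ≠ 0 := fun h => hkF (h ▸ zero_mem _)
  obtain ⟨M, V, hFM, hM, hkM, hk⟩ := H288.K2.exists_place (cl0_closed {y}) hkF (zero_mem _)
  have hy : y ∈ M := hFM (subset_cl0 _ rfl)
  have hkv : VN V k 0 := ⟨zero_mem M, hk⟩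
  obtain ⟨Y, Z, hY0, hYZ, hZv, hfQ⟩ := exists_et0 (P := P) h0 hk0 hy hkv
  have hU : VN V (fU P y) (fU P y) := VN.self (mem_fU hy)
  have hV : VN V (fV P y) (fV P y) := VN.self (mem_fV hy)
  have ha : VN V (fa P y) (fa P y) := VN.self (mem_fa hy)
  have hc : VN V (fc P y) (fc P y) := VN.self (mem_fc hy)
  have hA : VN V (algebraMap ℂ N P.P0 / fU P y) (algebraMap ℂ N P.P0 / fU P y) :=
    VN.self (mem_A hy)
  have hB : VN V (algebraMap ℂ N P.P2 / fV P y) (algebraMap ℂ N P.P2 / fV P y) :=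
    VN.self (mem_B hy)
  have hf2 : VN V (f2 P y) (f2 P y) := VN.self (mem_f2 hy)
  have hw := GenS.of_yk h0 hyk hfQ
  obtain ⟨w, hwe⟩ : ∃ w : Fin 5 → N, w = ![Y⁻¹, k, y, numS P Y⁻¹ k y / (Y⁻¹ * fD P Y⁻¹ k y),
      numT P Y⁻¹ k y / (Y⁻¹ * fD P Y⁻¹ k y)] := ⟨_, rfl⟩
  rw [← hwe] at hw
  have w0 : w 0 = Y⁻¹ := by rw [hwe]; rfl
  have w1 : w 1 = k := by rw [hwe]; rfl
  have w2 : w 2 = y := by rw [hwe]; rfl
  have hU2 : fU P y = (kd P y).U := rfl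
  have hV2 : fV P y = (kd P y).V := rfl
  -- the denominator
  obtain ⟨Den, hDen⟩ : ∃ D, D = (k - 1) + k ^ 2 * Z * (fU P y ^ 2 - k * fV P y ^ 2) := ⟨_, rfl⟩
  have hYv : VN V Y 0 := by
    rw [hYZ]
    exact ((hkv.pow 3).mul hZv).cast (by ring)
  obtain ⟨ac, hac⟩ : ∃ ac, ac = fa P y * fU P y + fc P y * k * fV P y := ⟨_, rfl⟩
  have hacv : ∃ b, VN V ac b := by
    rw [hac]
    exact ⟨_, (ha.mul hU).add ((hc.mul hkv).mul hV)⟩
  obtain ⟨bac, hacv⟩ := hacv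
  have hU2v := hU.pow 2
  have hV2v := hV.pow 2
  obtain ⟨sU, hsU⟩ : ∃ s, s = fU P y ^ 2 := ⟨_, rfl⟩
  obtain ⟨sV, hsV⟩ : ∃ s, s = fV P y ^ 2 := ⟨_, rfl⟩
  rw [← hsU] at hU2v
  rw [← hsV] at hV2v
  have hDv : VN V Den (-1) := by
    rw [hDen, ← hsU, ← hsV]
    refine VN.cast (((hkv.sub VN.one)).add (((hkv.pow 2).mul hZv).mul (hU2v.sub (hkv.mul hV2v)))) ?_
    ring
  have hD0 : Den ≠ 0 := hDv.ne_zero (by norm_num)
  have hTv : VN V (fT P k y) (-(algebraMap ℂ N P.P0 / fU P y)) := by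
    unfold fT
    refine VN.cast (hkv.add ((hkv.sub VN.one).mul (hA.sub (hB.mul hkv)))) ?_
    ring
  have hS := numS_eq P hw.e1 hw.e2
  have hT := numT_eq P hw.e1 hw.e2
  rw [w0, w1, w2] at hS hT
  obtain ⟨T, hTe⟩ : ∃ T, T = fT P k y := ⟨_, rfl⟩
  rw [← hTe] at hTv
  obtain ⟨i, hi⟩ : ∃ i, i = Y⁻¹ := ⟨_, rfl⟩
  rw [← hi] at hT hS
  have hYi : Y * i = 1 := by
    rw [hi]
    exact mul_inv_cancel₀ hY0
  have hfd : Y * fD P i k y = k * Den := by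
    rw [hDen]
    unfold fD
    linear_combination (k * (k - 1)) * hYi + (fU P y ^ 2 - k * fV P y ^ 2) * hYZ
  have hnT : Y ^ 2 * numT P i k y = Y * (fa P y * fU P y + fc P y * k * fV P y) +
      (1 + fV P y ^ 2 * Y) * (f2 P y * Y - T) := by
    rw [hTe]
    unfold numT
    linear_combination (Y * (fa P y * fU P y + fc P y * k * fV P y) + f2 P y * Y -
      fT P k y * (Y * i + 1) - fV P y ^ 2 * Y * fT P k y) * hYi
  have hnS : Y ^ 2 * numS P i k y = k * Y * (fa P y * fU P y + fc P y * k * fV P y) +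
      (k ^ 2 + fU P y ^ 2 * Y) * (f2 P y * Y - T) := by
    rw [hTe]
    unfold numS
    linear_combination (k * Y * (fa P y * fU P y + fc P y * k * fV P y) + k ^ 2 * f2 P y * Y -
      k ^ 2 * fT P k y * (Y * i + 1) - fU P y ^ 2 * Y * fT P k y) * hYi
  have hT' : k * w 4 = (Y * (fa P y * fU P y + fc P y * k * fV P y) +
      (1 + fV P y ^ 2 * Y) * (f2 P y * Y - T)) / Den := by
    rw [eq_div_iff hD0]
    linear_combination (-w 4) * hfd + Y ^ 2 * hT + hnT - (Y * fD P i k y * w 4) * hYi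
  have hS1 : w 3 * (k * Den) = k * Y * (fa P y * fU P y + fc P y * k * fV P y) +
      (k ^ 2 + fU P y ^ 2 * Y) * (f2 P y * Y - T) := by
    linear_combination (-w 3) * hfd + Y ^ 2 * hS + hnS - (Y * fD P i k y * w 3) * hYi
  have hS' : w 3 / k = (k ^ 2 * Z * (fa P y * fU P y + fc P y * k * fV P y) +
      (1 + fU P y ^ 2 * k * Z) * (f2 P y * k ^ 3 * Z - T)) / Den := by
    rw [div_eq_div_iff hk0 hD0]
    apply mul_left_cancel₀ hk0
    rw [hYZ] at hS1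
    linear_combination hS1
  have hS2 : (w 3 / k + algebraMap ℂ N P.P0 / fU P y) / k =
      (k * Z * (fa P y * fU P y + fc P y * k * fV P y) + f2 P y * k ^ 2 * Z +
      fU P y ^ 2 * Z * (f2 P y * k ^ 3 * Z - T) + algebraMap ℂ N P.P0 / fU P y * k * Z *
        (fU P y ^ 2 - k * fV P y ^ 2) + (-1 + (k - 1) * (algebraMap ℂ N P.P2 / fV P y))) / Den := by
    rw [hS', div_eq_div_iff hk0 hD0, add_mul, div_mul_cancel₀ _ hD0, hTe]
    obtain ⟨A, hAe⟩ : ∃ A, A = algebraMap ℂ N P.P0 / fU P y := ⟨_, rfl⟩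
    obtain ⟨B, hBe⟩ : ∃ B, B = algebraMap ℂ N P.P2 / fV P y := ⟨_, rfl⟩
    unfold fT
    rw [← hAe, ← hBe, hDen]
    ring
  refine ⟨M, V, w, hFM, hM, hw, w1, w2, hkv, ?_, ?_, ?_⟩
  · change VN V _ (-(algebraMap ℂ N P.P0 / fU P y))
    rw [hT', ← hac, ← hsV]
    refine VN.cast (VN.div ((hYv.mul hacv).add ((VN.one.add (hV2v.mul hYv)).mul
      ((hf2.mul hYv).sub hTv))) hDv (by norm_num)) ?_
    ring
  · change VN V _ (-(algebraMap ℂ N P.P0 / fU P y))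
    rw [hS', ← hac, ← hsU]
    refine VN.cast (VN.div ((((hkv.pow 2).mul hZv).mul hacv).add
      ((VN.one.add ((hU2v.mul hkv).mul hZv)).mul (((hf2.mul (hkv.pow 3)).mul hZv).sub hTv)))
      hDv (by norm_num)) ?_
    ring
  · change VN V ((w 3 / k + algebraMap ℂ N P.P0 / fU P y) / k)
      (1 + algebraMap ℂ N P.P2 / fV P y)
    rw [hS2, ← hac, ← hsU, ← hsV]
    refine VN.cast (VN.div ((((((hkv.mul hZv).mul hacv).add ((hf2.mul (hkv.pow 2)).mul hZv)).add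
      ((hU2v.mul hZv).mul (((hf2.mul (hkv.pow 3)).mul hZv).sub hTv))).add
      (((hA.mul hkv).mul hZv).mul (hU2v.sub (hkv.mul hV2v)))).add
      (VN.one.neg.add ((hkv.sub VN.one).mul hB))) hDv (by norm_num)) ?_
    ring

end Vale.Agent.P297.Z2K
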