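import Vale.Agent.P297.H288.K2.NZ

/-!
The polar of a generic point does not contain the points of the nodal cubic on the quadric.
-/

set_option linter.unusedSectionVars false
set_option linter.style.haveILetI false
set_option linter.unusedSimpArgs false

open IntermediateField Polynomial

namespace Vale.Agent.P297.Z2K

open Vale.Agent.P297 Vale.Agent.P297.Gen Vale.Agent.P297.H72 Vale.Agent.P297.H521
open Vale.Agent.P297.H160.Z2Irr Vale.Agent.P297.H279.K2 Vale.Agent.P297.H288.K2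

namespace KD

variable {R : Type*} [CommRing R] (D : KD R)

/-- the factors of the coordinates of the nodal cubic -/
def dt (t : R) : R := D.U ^ 2 - D.V ^ 2 * t ^ 2

def at' (t : R) : R := D.a * D.U + D.c * D.V * t

theorem gam_one (t : R) : D.gam 1 t = ![dt D t, t * dt D t, t ^ 2 * at' D t, at' D t] := by
  funext i
  fin_cases i <;> simp [KD.gam, dt, at']

/-- the restriction of the quadric to the nodal cubic, as a polynomial -/
noncomputable def QG : R[X] := (D.map C).Q ((D.map C).gam 1 X)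

theorem eval₂_QG {R' : Type*} [CommRing R'] (f : R →+* R') (t : R') :
    (QG D).eval₂ f t = (D.map f).Q ((D.map f).gam 1 t) := by
  have h1 := KD.map_Q (D.map C) (eval₂RingHom f t) ((D.map C).gam 1 X)
  have h2 := KD.map_gam (D.map C) (eval₂RingHom f t) 1 X
  have h3 : (D.map C).map (eval₂RingHom f t) = D.map f := by
    simp only [KD.map, coe_eval₂RingHom, eval₂_C]
  rw [h3] at h1 h2
  rw [h2] at h1
  simp only [coe_eval₂RingHom, eval₂_X, eval₂_one] at h1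
  exact h1

theorem QG_zero : (QG D).coeff 0 = -D.A * D.U ^ 4 * (D.m + D.A * D.e) := by
  have h := eval₂_QG D (RingHom.id R) 0
  rw [eval₂_at_zero, RingHom.id_apply] at h
  rw [h]
  simp only [KD.map, KD.Q, KD.Q2, KD.Q3, KD.gam, RingHom.id_apply, Matrix.cons_val_zero,
    Matrix.cons_val_one, Matrix.cons_val]
  ring

end KD

variable {N : Type} [Field N] [Algebra ℂ N] [IsAlgClosed N] {P : Par} {y : N}

/-- the datum over a field that contains `y` -/
theorem kd_val {F : IntermediateField ℂ N} (hy : y ∈ F) :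
    (kd P (⟨y, hy⟩ : F)).map (algebraMap F N) = kd P y := map_kd P F.val ⟨y, hy⟩

/-- The parameters of the points of the nodal cubic on the quadric are algebraic over `y`. -/
theorem t_mem_of_Q (h0 : P.P0 ≠ 0) (hy : Transcendental ℂ y) {t : N}
    (hQ : (kd P y).Q ((kd P y).gam 1 t) = 0) : t ∈ cl0 ({y} : Set N) := by
  have hyF : y ∈ cl0 ({y} : Set N) := subset_cl0 _ rfl
  obtain ⟨D', hD'⟩ : ∃ D' : KD (cl0 ({y} : Set N)), D' = kd P ⟨y, hyF⟩ := ⟨_, rfl⟩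
  have hDm : D'.map (algebraMap (cl0 ({y} : Set N)) N) = kd P y := by
    rw [hD']
    exact kd_val hyF
  refine cl0_closed _ _ ⟨KD.QG D', ?_, ?_⟩
  · intro h
    have h1 := KD.QG_zero D'
    rw [h, coeff_zero] at h1
    have h2 := congrArg (algebraMap (cl0 ({y} : Set N)) N) h1
    simp only [map_zero, map_mul, map_neg, map_pow, map_add] at h2
    have eA : algebraMap (cl0 ({y} : Set N)) N D'.A = (kd P y).A := by rw [← hDm]; rfl
    have eU : algebraMap (cl0 ({y} : Set N)) N D'.U = (kd P y).U := by rw [← hDm]; rfl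
    have em : algebraMap (cl0 ({y} : Set N)) N D'.m = (kd P y).m := by rw [← hDm]; rfl
    have ee : algebraMap (cl0 ({y} : Set N)) N D'.e = (kd P y).e := by rw [← hDm]; rfl
    rw [eA, eU, em, ee] at h2
    exact mul_ne_zero (mul_ne_zero (neg_ne_zero.2 (A_ne h0 hy)) (pow_ne_zero 4 (U_ne' hy)))
      (mAe_ne hy) h2.symm
  · rw [aeval_def, KD.eval₂_QG, hDm]
    exact hQ

theorem amc_ne (hQ : P.Q0 ≠ P.Q1) : (kd P y).a - (kd P y).c ≠ 0 := by
  have h : (kd P y).a - (kd P y).c = algebraMap ℂ N (P.Q0 - P.Q1) := by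
    change (2 * y + algebraMap ℂ N P.Q0) - (2 * y + algebraMap ℂ N P.Q1) = _
    rw [map_sub]
    ring
  rw [h]
  exact (_root_.map_ne_zero _).2 (sub_ne_zero.2 hQ)

theorem apc_ne (hy : Transcendental ℂ y) : (kd P y).a + (kd P y).c ≠ 0 := by
  obtain ⟨M, V, hz, hy0, hU, hV, ha, hc, hA, hB, he, hm, hd⟩ := exists_inf hy P
  intro h
  have h2 : (4 : N) ≠ 0 := by
    haveI : CharZero N := charZero_of_injective_algebraMap (algebraMap ℂ N).injective
    norm_num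
  have v : VN V ((kd P y).a * y⁻¹ + (kd P y).c * y⁻¹) 4 := VN.cast (ha.add hc) (by ring)
  refine v.ne_zero h2 ?_
  rw [← add_mul, h, zero_mul]

/-- The two factors have no common zero. -/
theorem at_ne (hQ : P.Q0 ≠ P.Q1) (hy : Transcendental ℂ y) {t : N}
    (h : KD.dt (kd P y) t = 0) : KD.at' (kd P y) t ≠ 0 := by
  obtain ⟨D, hD⟩ : ∃ D, D = kd P y := ⟨_, rfl⟩
  have hU := U_ne' (P := P) hy
  have h1 := amc_ne (P := P) (y := y) hQ
  have h2 := apc_ne (P := P) hy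
  rw [← hD] at h hU h1 h2 ⊢
  intro h3
  unfold KD.dt at h
  unfold KD.at' at h3
  have : D.U ^ 2 * ((D.a - D.c) * (D.a + D.c)) = 0 := by
    linear_combination (D.a * D.U - D.c * D.V * t) * h3 - D.c ^ 2 * h
  exact mul_ne_zero (pow_ne_zero 2 hU) (mul_ne_zero h1 h2) this

/-- **The points of the nodal cubic are not vertices of the quadric.** -/
theorem no_vertex (h0 : P.P0 ≠ 0) (hQ : P.Q0 ≠ P.Q1)
    (hP : ¬ (P.P1 - P.M1 = 2 * P.P0 ∧ P.P1 - P.M1 = 2 * P.P2)) (hy : Transcendental ℂ y) (t : N)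
    (e0 : KD.g0 (kd P y) ((kd P y).gam 1 t) = 0) (e1 : KD.g1 (kd P y) ((kd P y).gam 1 t) = 0)
    (e2 : KD.g2 (kd P y) ((kd P y).gam 1 t) = 0) (e3 : KD.g3 (kd P y) ((kd P y).gam 1 t) = 0) :
    False := by
  have hat := at_ne (P := P) hQ hy (t := t)
  have he := e_ne (P := P) hy
  have hA := A_ne (P := P) h0 hy
  have hmA := mAe_ne (P := P) hy
  have v1 := vertex1 (P := P) hy
  have v2 := vertex2 (P := P) hy
  obtain ⟨D, hD⟩ : ∃ D, D = kd P y := ⟨_, rfl⟩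
  rw [← hD] at e0 e1 e2 e3 hat he hA hmA v1 v2
  rw [KD.gam_one] at e0 e1 e2 e3
  obtain ⟨d, hd⟩ : ∃ d, d = KD.dt D t := ⟨_, rfl⟩
  obtain ⟨α, hα⟩ : ∃ α, α = KD.at' D t := ⟨_, rfl⟩
  rw [← hd, ← hα] at e0 e1 e2 e3 hat
  simp only [KD.g0, KD.g1, KD.g2, KD.g3, Matrix.cons_val_zero, Matrix.cons_val_one,
    Matrix.cons_val] at e0 e1 e2 e3
  have h2 : D.e * α = (D.m + 2 * D.B * D.e) * d := by linear_combination -e2
  by_cases hd0 : d = 0
  · rw [hd0, mul_zero] at h2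
    exact mul_ne_zero he (hat hd0) h2
  have h3 : D.e * α * t ^ 2 = -(D.m + 2 * D.A * D.e) * (t * d) := by linear_combination -e3
  have h4 : t ^ 2 * (D.m + 2 * D.B * D.e) = -(D.m + 2 * D.A * D.e) * t := by
    apply mul_right_cancel₀ hd0
    linear_combination h3 - t ^ 2 * h2
  obtain ⟨E, hE⟩ : ∃ E, E = -D.m ^ 2 + D.m * D.e * (1 - D.A - D.B) -
    2 * D.A * D.B * D.e ^ 2 := ⟨_, rfl⟩
  have h5 : E * t = 2 * D.A * D.e * (D.m + D.A * D.e) := by
    apply mul_right_cancel₀ hd0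
    rw [hE]
    linear_combination D.e * e0 - (D.m + 2 * D.B * D.e) * h3
  have h6 : E = 2 * D.B * D.e * (D.m + D.B * D.e) * t := by
    apply mul_right_cancel₀ hd0
    rw [hE]
    linear_combination D.e * e1 + (D.m + 2 * D.A * D.e) * h2
  have ht : t ≠ 0 := by
    intro ht
    rw [ht, mul_zero] at h5
    have h2' : (2 : N) ≠ 0 := by
      haveI : CharZero N := charZero_of_injective_algebraMap (algebraMap ℂ N).injective
      exact two_ne_zero
    exact mul_ne_zero (mul_ne_zero (mul_ne_zero h2' hA) he) hmA h5.symm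
  have h7 : t * (D.m + 2 * D.B * D.e) = -(D.m + 2 * D.A * D.e) := by
    apply mul_right_cancel₀ ht
    linear_combination h4
  refine hP ⟨v1 ?_, v2 ?_⟩
  · rw [← hE]
    linear_combination E * h7 - (D.m + 2 * D.B * D.e) * h5
  · rw [← hE]
    linear_combination (D.m + 2 * D.B * D.e) * h6 + 2 * D.B * D.e * (D.m + D.B * D.e) * h7

/-- **(F2)** -/
theorem f2_ne (hGI : HGI P N) (h0 : P.P0 ≠ 0) (hQ : P.Q0 ≠ P.Q1)
    (hP : ¬ (P.P1 - P.M1 = 2 * P.P0 ∧ P.P1 - P.M1 = 2 * P.P2)) {w : Fin 5 → N} (hw : GenS P w)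
    {t : N} (h1 : (kd P (w 2)).Q ((kd P (w 2)).gam 1 t) = 0)
    (h2 : (kd P (w 2)).b (vec w) ((kd P (w 2)).gam 1 t) = 0) : False := by
  have hy := trans_y h0 hw
  have ht := t_mem_of_Q h0 hy h1
  have hyF : w 2 ∈ cl0 ({w 2} : Set N) := subset_cl0 _ rfl
  have mU : (kd P (w 2)).U ∈ cl0 ({w 2} : Set N) := mem_fU hyF
  have mV : (kd P (w 2)).V ∈ cl0 ({w 2} : Set N) := mem_fV hyF
  have ma : (kd P (w 2)).a ∈ cl0 ({w 2} : Set N) := mem_fa hyF
  have mc : (kd P (w 2)).c ∈ cl0 ({w 2} : Set N) := mem_fc hyF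
  have mA : (kd P (w 2)).A ∈ cl0 ({w 2} : Set N) := mem_A hyF
  have mB : (kd P (w 2)).B ∈ cl0 ({w 2} : Set N) := mem_B hyF
  have me : (kd P (w 2)).e ∈ cl0 ({w 2} : Set N) := mem_f2 hyF
  have mm : (kd P (w 2)).m ∈ cl0 ({w 2} : Set N) := mem_f3 hyF
  have m2 : (2 : N) ∈ cl0 ({w 2} : Set N) := two_mem'
  rw [KD.b_eq] at h2
  obtain ⟨D, hD⟩ : ∃ D, D = kd P (w 2) := ⟨_, rfl⟩
  obtain ⟨γ, hγ⟩ : ∃ γ, γ = (kd P (w 2)).gam 1 t := ⟨_, rfl⟩
  have mγ : ∀ i, γ i ∈ cl0 ({w 2} : Set N) := by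
    intro i
    have md : KD.dt (kd P (w 2)) t ∈ cl0 ({w 2} : Set N) :=
      sub_mem (pow_mem mU 2) (mul_mem (pow_mem mV 2) (pow_mem ht 2))
    have mat : KD.at' (kd P (w 2)) t ∈ cl0 ({w 2} : Set N) :=
      add_mem (mul_mem ma mU) (mul_mem (mul_mem mc mV) ht)
    rw [hγ, KD.gam_one]
    fin_cases i
    · exact md
    · exact mul_mem ht md
    · exact mul_mem (pow_mem ht 2) mat
    · exact mat
  rw [← hγ] at h2
  have n0 : KD.g0 (kd P (w 2)) γ ∈ cl0 ({w 2} : Set N) :=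
    sub_mem (mul_mem mm (sub_mem (add_mem (mγ 2) (mul_mem (add_mem (add_mem (one_mem _) mA) mB)
      (mγ 1))) (mul_mem (mul_mem m2 mA) (mγ 0))))
      (mul_mem me (add_mem (sub_mem (mul_mem (mul_mem (neg_mem m2) mB) (mγ 2))
        (mul_mem (mul_mem (mul_mem m2 mA) mB) (mγ 1))) (mul_mem (mul_mem m2 (pow_mem mA 2))
        (mγ 0))))
  have n1 : KD.g1 (kd P (w 2)) γ ∈ cl0 ({w 2} : Set N) :=
    sub_mem (mul_mem mm (sub_mem (add_mem (neg_mem (mγ 3)) (mul_mem (add_mem (add_mem (one_mem _)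
      mA) mB) (mγ 0))) (mul_mem (mul_mem m2 mB) (mγ 1))))
      (mul_mem me (add_mem (sub_mem (mul_mem (mul_mem m2 mA) (mγ 3))
        (mul_mem (mul_mem (mul_mem m2 mA) mB) (mγ 0))) (mul_mem (mul_mem m2 (pow_mem mB 2))
        (mγ 1))))
  have n2 : KD.g2 (kd P (w 2)) γ ∈ cl0 ({w 2} : Set N) :=
    sub_mem (mul_mem mm (mγ 0)) (mul_mem me (sub_mem (mγ 3) (mul_mem (mul_mem m2 mB) (mγ 0))))
  have n3 : KD.g3 (kd P (w 2)) γ ∈ cl0 ({w 2} : Set N) :=
    sub_mem (mul_mem (neg_mem mm) (mγ 1))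
      (mul_mem me (add_mem (mγ 2) (mul_mem (mul_mem m2 mA) (mγ 1))))
  have hx : vec w 0 = 1 ∧ vec w 1 = w 1 ∧ vec w 2 = w 3 ∧ vec w 3 = w 4 := ⟨rfl, rfl, rfl, rfl⟩
  rw [hx.1, hx.2.1, hx.2.2.1, hx.2.2.2, mul_one] at h2
  obtain ⟨l0, l1, l2, l3⟩ := li hGI h0 hw n0 n1 n2 n3 h2
  rw [hγ] at l0 l1 l2 l3
  exact no_vertex h0 hQ hP hy t l0 l1 l2 l3

end Vale.Agent.P297.Z2K
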