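import Vale.Agent.P297.H288.K2.LI
import Vale.Agent.P297.H160.Z2GI

/-!
The place `y → ∞`: expressions in `y` which are not zero.
-/

set_option linter.unusedSectionVars false
set_option linter.style.haveILetI false
set_option linter.unusedSimpArgs false

open IntermediateField Polynomial

namespace Vale.Agent.P297.Z2K

open Vale.Agent.P297 Vale.Agent.P297.Gen Vale.Agent.P297.H72 Vale.Agent.P297.H521
open Vale.Agent.P297.H160.Z2Irr Vale.Agent.P297.H279.K2 Vale.Agent.P297.H288.K2

variable {N : Type} [Field N] [Algebra ℂ N] [IsAlgClosed N] {P : Par}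

theorem hgi_of (h0 : P.P0 ≠ 0) (h2 : P.P2 ≠ 0) : HGI P N := fun _ _ hw hw' hy =>
  GI h0 h2 hw hw' hy

/-- **The place `y → ∞`.** -/
theorem exists_inf {y : N} (hy : Transcendental ℂ y) (P : Par) :
    ∃ (M : IntermediateField ℂ N) (V : Plc M N), VN V y⁻¹ 0 ∧ y ≠ 0 ∧
      VN V ((kd P y).U * y⁻¹) 1 ∧ VN V ((kd P y).V * y⁻¹) 1 ∧
      VN V ((kd P y).a * y⁻¹) 2 ∧ VN V ((kd P y).c * y⁻¹) 2 ∧
      VN V ((kd P y).A * y) (algebraMap ℂ N P.P0) ∧ VN V ((kd P y).B * y) (algebraMap ℂ N P.P2) ∧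
      VN V ((kd P y).e * y⁻¹ ^ 2) (-1) ∧ VN V ((kd P y).m * y⁻¹ ^ 2) (-1) ∧
      VN V (((kd P y).m - (kd P y).e) * y⁻¹)
        (algebraMap ℂ N (P.M1 - P.P1 + P.P0 + P.P2)) := by
  have hyF : y ∉ cl0 (∅ : Set N) := H288.notMem_empty_of_transcendental hy
  have hziF : y⁻¹ ∉ cl0 (∅ : Set N) := fun h => hyF (by
    have h1 := inv_mem h
    rwa [inv_inv] at h1)
  obtain ⟨M, V, hFM, hM, hkM, hk⟩ := H288.K2.exists_place (cl0_closed ∅) hziF (zero_mem _)
  have hz : VN V y⁻¹ 0 := ⟨zero_mem M, hk⟩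
  have hy0 : y ≠ 0 := by
    rintro rfl
    exact hyF (zero_mem _)
  obtain ⟨z, hze⟩ : ∃ z, z = y⁻¹ := ⟨_, rfl⟩
  have hyz : y * z = 1 := by
    rw [hze]
    exact mul_inv_cancel₀ hy0
  rw [← hze] at hz
  have hU : VN V ((kd P y).U * z) 1 := by
    have e : (kd P y).U * z = 1 + algebraMap ℂ N P.u * z := by
      change (y + algebraMap ℂ N P.u) * z = _
      linear_combination hyz
    rw [e]
    exact VN.cast (VN.one.add ((VN.const _).mul hz)) (by ring)
  have hV : VN V ((kd P y).V * z) 1 := by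
    have e : (kd P y).V * z = 1 + algebraMap ℂ N P.v * z := by
      change (y + algebraMap ℂ N P.v) * z = _
      linear_combination hyz
    rw [e]
    exact VN.cast (VN.one.add ((VN.const _).mul hz)) (by ring)
  have ha : VN V ((kd P y).a * z) 2 := by
    have e : (kd P y).a * z = 2 + algebraMap ℂ N P.Q0 * z := by
      change (2 * y + algebraMap ℂ N P.Q0) * z = _
      linear_combination 2 * hyz
    rw [e]
    exact VN.cast (VN.two.add ((VN.const _).mul hz)) (by ring)
  have hc : VN V ((kd P y).c * z) 2 := by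
    have e : (kd P y).c * z = 2 + algebraMap ℂ N P.Q1 * z := by
      change (2 * y + algebraMap ℂ N P.Q1) * z = _
      linear_combination 2 * hyz
    rw [e]
    exact VN.cast (VN.two.add ((VN.const _).mul hz)) (by ring)
  have hA : VN V ((kd P y).A * y) (algebraMap ℂ N P.P0) := by
    have e : (kd P y).A * y = algebraMap ℂ N P.P0 / ((kd P y).U * z) := by
      change algebraMap ℂ N P.P0 / fU P y * y = algebraMap ℂ N P.P0 / (fU P y * z)
      rw [hze, ← div_eq_mul_inv, div_div_eq_mul_div, div_mul_eq_mul_div]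
    rw [e]
    exact VN.cast ((VN.const _).div hU one_ne_zero) (by rw [div_one])
  have hB : VN V ((kd P y).B * y) (algebraMap ℂ N P.P2) := by
    have e : (kd P y).B * y = algebraMap ℂ N P.P2 / ((kd P y).V * z) := by
      change algebraMap ℂ N P.P2 / fV P y * y = algebraMap ℂ N P.P2 / (fV P y * z)
      rw [hze, ← div_eq_mul_inv, div_div_eq_mul_div, div_mul_eq_mul_div]
    rw [e]
    exact VN.cast ((VN.const _).div hV one_ne_zero) (by rw [div_one])
  obtain ⟨D, hD⟩ : ∃ D, D = kd P y := ⟨_, rfl⟩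
  have hee : D.e = algebraMap ℂ N P.n - y ^ 2 + algebraMap ℂ N P.P1 * y + D.B * D.U ^ 2 +
    D.A * D.V ^ 2 := by
    rw [hD]
    rfl
  have hme : D.m = algebraMap ℂ N P.m - y ^ 2 + algebraMap ℂ N P.M1 * y + D.A * D.c * D.V +
      D.B * D.a * D.U - (D.A * D.V + D.B * D.U) ^ 2 := by
    rw [hD]
    rfl
  rw [← hD] at hU hV ha hc hA hB
  rw [← hD, ← hze]
  refine ⟨M, V, hz, hy0, hU, hV, ha, hc, hA, hB, ?_, ?_, ?_⟩
  · have e : D.e * z ^ 2 = algebraMap ℂ N P.n * z ^ 2 - 1 + algebraMap ℂ N P.P1 * z +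
        D.B * y * (D.U * z) ^ 2 * z + D.A * y * (D.V * z) ^ 2 * z := by
      rw [hee]
      linear_combination (-(y * z) - 1 + algebraMap ℂ N P.P1 * z - D.B * D.U ^ 2 * z ^ 2 -
        D.A * D.V ^ 2 * z ^ 2) * hyz
    rw [e]
    refine VN.cast (a := _) (by
        repeat' (first | assumption | exact VN.one | exact VN.zero | exact VN.const _ |
          exact VN.ofNat _ | apply VN.add | apply VN.sub | apply VN.mul | apply VN.neg | apply VN.pow)) ?_
    ring
  · have e : D.m * z ^ 2 = algebraMap ℂ N P.m * z ^ 2 - 1 + algebraMap ℂ N P.M1 * z +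
        D.A * y * (D.c * z) * (D.V * z) * z + D.B * y * (D.a * z) * (D.U * z) * z -
        (D.A * y * (D.V * z) + D.B * y * (D.U * z)) ^ 2 * z ^ 2 := by
      rw [hme]
      linear_combination (-(y * z) - 1 + algebraMap ℂ N P.M1 * z -
        D.A * D.c * D.V * z ^ 2 - D.B * D.a * D.U * z ^ 2 +
        (D.A * D.V + D.B * D.U) ^ 2 * z ^ 2 * (y * z + 1)) * hyz
    rw [e]
    refine VN.cast (a := _) (by
        repeat' (first | assumption | exact VN.one | exact VN.zero | exact VN.const _ |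
          exact VN.ofNat _ | apply VN.add | apply VN.sub | apply VN.mul | apply VN.neg | apply VN.pow)) ?_
    ring
  · have e : (D.m - D.e) * z = (algebraMap ℂ N P.m - algebraMap ℂ N P.n) * z +
        (algebraMap ℂ N P.M1 - algebraMap ℂ N P.P1) +
        D.A * y * (D.c * z) * (D.V * z) + D.B * y * (D.a * z) * (D.U * z) -
        (D.A * y * (D.V * z) + D.B * y * (D.U * z)) ^ 2 * z - D.B * y * (D.U * z) ^ 2 -
        D.A * y * (D.V * z) ^ 2 := by
      rw [hme, hee]
      linear_combination ((algebraMap ℂ N P.M1 - algebraMap ℂ N P.P1) -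
        D.A * D.c * D.V * z - D.B * D.a * D.U * z +
        (D.A * D.V + D.B * D.U) ^ 2 * z * (y * z + 1) + D.B * D.U ^ 2 * z +
        D.A * D.V ^ 2 * z) * hyz
    rw [e]
    refine VN.cast (a := _) (by
        repeat' (first | assumption | exact VN.one | exact VN.zero | exact VN.const _ |
          exact VN.ofNat _ | apply VN.add | apply VN.sub | apply VN.mul | apply VN.neg | apply VN.pow)) ?_
    simp only [map_add, map_sub]
    ring

end Vale.Agent.P297.Z2K
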