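import Vale.Agent.P297.H288.K2.Linf
import Vale.Agent.P297.H288.K2.Chord
import Vale.Agent.P297.H279.K2.Main
import Vale.Agent.P297.H160.Z2Gp
import Vale.Agent.P297.H251.Z2.K9
import Vale.Agent.P297.H424.Z2.Main

/-!
The K-side: the generic points of the surface from the chords.
-/

set_option linter.unusedSectionVars false
set_option linter.style.haveILetI false
set_option linter.unusedSimpArgs false

open IntermediateField Polynomial

namespace Vale.Agent.P297.Z2K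

open Vale.Agent.P297 Vale.Agent.P297.Gen Vale.Agent.P297.H72 Vale.Agent.P297.H521
open Vale.Agent.P297.H160.Z2Irr Vale.Agent.P297.H279.K2 Vale.Agent.P297.H288.K2

variable {K N : Type} [Field K] [Algebra ℂ K] [Field N] [Algebra ℂ N] [IsAlgClosed N] {P : Par}
  {x₀ : Fin 5 → K} {m : ℤ}

/-- The denominator. -/
theorem den_ne (hGI : HGI P N) (h0 : P.P0 ≠ 0) {w : Fin 5 → N} (hw : GenS P w) :
    (kd P (w 2)).den (w 1) (w 3) ≠ 0 := by
  have hy := trans_y h0 hw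
  have hyF : w 2 ∈ cl0 ({w 2} : Set N) := subset_cl0 _ rfl
  obtain ⟨mU, mV, ma, mc, mA, mB, me, mm⟩ := kd_mem (P := P) hyF
  intro h
  unfold KD.den at h
  have h1 : (0 : N) + ((kd P (w 2)).m + 2 * (kd P (w 2)).e * (kd P (w 2)).A) * w 1 +
      (kd P (w 2)).e * w 3 + 0 * w 4 = 0 := by
    linear_combination h
  obtain ⟨-, -, h2, -⟩ := li hGI h0 hw (zero_mem _)
    (add_mem mm (mul_mem (mul_mem two_mem' me) mA)) me (zero_mem _) h1
  exact Z2K.e_ne hy h2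

/-- The points of the nodal cubic on the quadric are smooth points of the cubic surfaces. -/
theorem C1_ne_of_Q (hGI : HGI P N) (h0 : P.P0 ≠ 0) (hQ01 : P.Q0 ≠ P.Q1) {w : Fin 5 → N}
    (hw : GenS P w) {t : N} (h1 : (kd P (w 2)).Q ((kd P (w 2)).gam 1 t) = 0) :
    (kd P (w 2)).C1 ((kd P (w 2)).gam 1 t) (vec w) ≠ 0 := by
  have hy := trans_y h0 hw
  have ht := t_mem_of_Q h0 hy h1
  have hyF : w 2 ∈ cl0 ({w 2} : Set N) := subset_cl0 _ rfl
  obtain ⟨mU, mV, ma, mc, mA, mB, me, mm⟩ := kd_mem (P := P) hyF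
  have nU := Z2K.U_ne' (P := P) hy
  have ne := Z2K.e_ne (P := P) hy
  have hat := at_ne (P := P) hQ01 hy (t := t)
  have md : KD.dt (kd P (w 2)) t ∈ cl0 ({w 2} : Set N) :=
    sub_mem (pow_mem mU 2) (mul_mem (pow_mem mV 2) (pow_mem ht 2))
  have mat : KD.at' (kd P (w 2)) t ∈ cl0 ({w 2} : Set N) :=
    add_mem (mul_mem ma mU) (mul_mem (mul_mem mc mV) ht)
  have hd : KD.dt (kd P (w 2)) t ≠ 0 := by
    intro hd
    have hα := hat hd
    have ht0 : t ≠ 0 := by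
      rintro rfl
      unfold KD.dt at hd
      apply pow_ne_zero 2 nU
      linear_combination hd
    rw [KD.gam_one, hd] at h1
    simp only [KD.Q, KD.Q2, KD.Q3, Matrix.cons_val_zero, Matrix.cons_val_one,
      Matrix.cons_val] at h1
    apply mul_ne_zero ne (mul_ne_zero (pow_ne_zero 2 ht0) (pow_ne_zero 2 hα))
    linear_combination -h1
  intro hC
  rw [C1_gx _ _ rfl] at hC
  have hC' := (mul_eq_zero.1 hC).resolve_left hd
  obtain ⟨W, hW⟩ : ∃ W, W = t * (t - 1) * KD.at' (kd P (w 2)) t + KD.dt (kd P (w 2)) t *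
    ((1 + (kd P (w 2)).A + (kd P (w 2)).B) * t - (kd P (w 2)).B * t ^ 2 -
      (kd P (w 2)).A) := ⟨_, rfl⟩
  have mW : W ∈ cl0 ({w 2} : Set N) := by
    rw [hW]
    exact add_mem (mul_mem (mul_mem ht (sub_mem ht (one_mem _))) mat) (mul_mem md
      (sub_mem (sub_mem (mul_mem (add_mem (add_mem (one_mem _) mA) mB) ht)
        (mul_mem mB (pow_mem ht 2))) mA))
  rw [← hW] at hC'
  have hx : vec w 0 = 1 ∧ vec w 1 = w 1 ∧ vec w 2 = w 3 ∧ vec w 3 = w 4 := ⟨rfl, rfl, rfl, rfl⟩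
  unfold KD.L at hC'
  rw [hx.1, hx.2.1, hx.2.2.1, hx.2.2.2] at hC'
  obtain ⟨D, hD⟩ : ∃ D, D = kd P (w 2) := ⟨_, rfl⟩
  rw [← hD] at hC' mU mV ma mc mA mB me mm nU ne md mat hd
  have h3 : (-(2 * (D.e * t ^ 2 * KD.at' D t)) - W * D.a * D.U) +
      (2 * (D.e * KD.at' D t * t) - W * D.c * D.V) * w 1 +
      (-(D.e * KD.dt D t) - W * D.V ^ 2) * w 3 +
      (D.e * (t ^ 2 * KD.dt D t) + W * D.U ^ 2) * w 4 = 0 := by
    linear_combination hC'
  obtain ⟨-, -, l2, l3⟩ := li hGI h0 hw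
    (sub_mem (neg_mem (mul_mem two_mem' (mul_mem (mul_mem me (pow_mem ht 2)) mat)))
      (mul_mem (mul_mem mW ma) mU))
    (sub_mem (mul_mem two_mem' (mul_mem (mul_mem me mat) ht)) (mul_mem (mul_mem mW mc) mV))
    (sub_mem (neg_mem (mul_mem me md)) (mul_mem mW (pow_mem mV 2)))
    (add_mem (mul_mem me (mul_mem (pow_mem ht 2) md)) (mul_mem mW (pow_mem mU 2))) h3
  have h4 : W * KD.dt D t = 0 := by
    unfold KD.dt at l2 l3 ⊢
    linear_combination l3 + t ^ 2 * l2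
  have h5 : W = 0 := (mul_eq_zero.1 h4).resolve_right hd
  rw [h5] at l2
  apply mul_ne_zero ne hd
  linear_combination -l2

/-- **The K-side.** -/
theorem kside (h4 : Algebra.trdeg ℂ N = 4) (hx : H160.Z2Irr.IsFF P x₀) (h0 : P.P0 ≠ 0)
    (h2 : P.P2 ≠ 0) (hQ01 : P.Q0 ≠ P.Q1) (huv : P.u ≠ P.v)
    (hP : ¬ (P.P1 - P.M1 = 2 * P.P0 ∧ P.P1 - P.M1 = 2 * P.P2)) :
    Z2.KSide P x₀ N m fun l w w' => ∃ t, IsChord P l t w w' := by
  intro n hn hch w hw
  have hGI : HGI P N := hgi_of h0 h2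
  have hy := trans_y h0 hw
  have hyF : w 2 ∈ cl0 ({w 2} : Set N) := subset_cl0 _ rfl
  have ne := Z2K.e_ne (P := P) hy
  obtain ⟨hlb, hlg⟩ := lead hGI h0 hw
  have hF2 : ∀ t, (kd P (w 2)).Q ((kd P (w 2)).gam 1 t) = 0 →
      (kd P (w 2)).b (vec w) ((kd P (w 2)).gam 1 t) ≠ 0 ∧
        (kd P (w 2)).C1 ((kd P (w 2)).gam 1 t) (vec w) ≠ 0 := fun t ht =>
    ⟨fun hb => f2_ne hGI h0 hQ01 hP hw ht hb, C1_ne_of_Q hGI h0 hQ01 hw ht⟩
  refine exists_smul_pt h0 h2 h4 hx hw (den_ne hGI h0 hw) hlb hlg hF2 fun t ht => ?_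
  have hQ : (kd P (w 2)).Q ((kd P (w 2)).gam 1 t) ≠ 0 := by
    intro hQ
    obtain ⟨h5, h6⟩ := hF2 t hQ
    have h7 := ht
    unfold KD.g9 at h7
    rw [hQ, zero_mul, sub_zero] at h7
    exact mul_ne_zero h5 h6 h7
  have hC : (kd P (w 2)).C1 ((kd P (w 2)).gam 1 t) (vec w) ≠ 0 := by
    intro hC
    have h7 := ht
    unfold KD.g9 at h7
    rw [hC, mul_zero, zero_sub, neg_eq_zero] at h7
    exact linf hGI h0 hQ01 huv hw ((mul_eq_zero.1 h7).resolve_left hQ) hC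
  obtain ⟨z, hz⟩ : ∃ z, z = (kd P (w 2)).zz (vec w) ((kd P (w 2)).gam 1 t) := ⟨_, rfl⟩
  have hz0 : ∃ i, z i ≠ 0 := by
    by_contra hcon
    push Not at hcon
    have h8 := H160.Z2Gp.zz_zz (kd P (w 2)) (vec w) ((kd P (w 2)).gam 1 t)
    rw [← hz] at h8
    have h9 := congrFun h8 0
    have h10 : z = fun _ => 0 := funext hcon
    have h11 : vec w 0 = 1 := rfl
    rw [h10, h11] at h9
    simp only [KD.zz, KD.lc, KD.b, KD.b2, KD.b3, mul_zero, zero_mul, add_zero, sub_zero, neg_zero,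
      mul_one] at h9
    exact pow_ne_zero 2 hQ h9.symm
  by_cases hr : H279.K2.Rat (cl0 ({w 2} : Set N)) z
  · right
    obtain ⟨c, f, hf, hzf⟩ := hr
    have hc : c ≠ 0 := by
      rintro rfl
      obtain ⟨i, hi⟩ := hz0
      exact hi (by rw [hzf, zero_mul])
    exact H160.Z2Gp.gprime' h4 hx h0 h2 hw hf hc (by rw [← hz]; exact funext hzf) hQ
  · left
    have hQz : (kd P (w 2)).Q z = 0 := by
      rw [hz]
      exact KD.Q_zz _ (Q_vec hw)
    have hCz : (kd P (w 2)).Cf z = 0 := by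
      rw [hz, KD.Cf_zz _ (KD.Cf_gam _ _ _), KD.Rf_eq _ (Cf_vec hw), ht, mul_zero, mul_zero]
    have hw' := genS_toW h0 h2 (cl0_closed _) hy hyF hQz hCz hr
    have hz00 := z0_ne h0 h2 (cl0_closed _) hy hyF hQz hCz hr
    have hzv : z = fun i => z 0 * vec (toW P (w 2) z) i := by
      funext i
      fin_cases i
      · exact (mul_one _).symm
      · exact (mul_div_cancel₀ (z 1) hz00).symm
      · exact (mul_div_cancel₀ (z 2) hz00).symm
      · exact (mul_div_cancel₀ (z 3) hz00).symm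
    obtain ⟨l, hl⟩ := H251.Z2.chord_of_g9 ne hw ht hC hw' rfl hz00 (hz ▸ hzv)
    exact ⟨toW P (w 2) z, z 0, hw', rfl, hz00, hz ▸ hzv, n, hn, hch l w _ ⟨t, hl⟩⟩

end Vale.Agent.P297.Z2K
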