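import Vale.Agent.P297.H288.K2.Et

/-!
The coordinates `1, k, σ, τ` of a generic point are linearly independent over the closed field of
`y`.
-/

set_option linter.unusedSectionVars false
set_option linter.style.haveILetI false
set_option linter.unusedSimpArgs false

open IntermediateField Polynomial

namespace Vale.Agent.P297.Z2K

open Vale.Agent.P297 Vale.Agent.P297.Gen Vale.Agent.P297.H72 Vale.Agent.P297.H521
open Vale.Agent.P297.H160.Z2Irr Vale.Agent.P297.H279.K2 Vale.Agent.P297.H288.K2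

variable {N : Type} [Field N] [Algebra ℂ N] [IsAlgClosed N] {P : Par}

/-- **Transitivity** on the generic points over `y`. -/
def HGI (P : Par) (N : Type) [Field N] [Algebra ℂ N] : Prop :=
  ∀ w w' : Fin 5 → N, GenS P w → GenS P w' → w 2 = w' 2 →
    ∃ g : N ≃ₐ[ℂ] N, (∀ z ∈ cl0 ({w 2} : Set N), g z = z) ∧ ∀ j, g (w j) = w' j

theorem trans_y (h0 : P.P0 ≠ 0) {w : Fin 5 → N} (hw : GenS P w) : Transcendental ℂ (w 2) :=
  (hw.ind_yk h0).transcendental 0

theorem poly_ne {y : N} (hy : Transcendental ℂ y) (f : ℂ[X]) (hf : f ≠ 0) : aeval y f ≠ 0 :=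
  fun h => hy ⟨f, hf, h⟩

theorem fV_add_ne {y : N} (hy : Transcendental ℂ y) (r : ℂ) : fV P y + algebraMap ℂ N r ≠ 0 := by
  have h := poly_ne hy (X + C (P.v + r)) (X_add_C_ne_zero _)
  simp only [map_add, aeval_X, aeval_C] at h
  unfold fV
  intro h1
  apply h
  linear_combination h1

/-- (LI) at the special point -/
theorem li0 {y k : N} {M : IntermediateField ℂ N} {V : Plc M N} {w : Fin 5 → N} (hk0 : k ≠ 0)
    (hy : Transcendental ℂ y) (hFM : cl0 {y} ≤ M) (hkv : VN V k 0)
    (h4 : VN V (k * w 4) (-(kd P y).A)) (h3 : VN V (w 3 / k) (-(kd P y).A))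
    (h33 : VN V ((w 3 / k + (kd P y).A) / k) (1 + (kd P y).B)) (h0 : P.P0 ≠ 0)
    {a b c d : N} (ha : a ∈ cl0 ({y} : Set N)) (hb : b ∈ cl0 ({y} : Set N))
    (hc : c ∈ cl0 ({y} : Set N)) (hd : d ∈ cl0 ({y} : Set N))
    (h : a + b * k + c * w 3 + d * w 4 = 0) : a = 0 ∧ b = 0 ∧ c = 0 ∧ d = 0 := by
  have hav : VN V a a := VN.self (hFM ha)
  have hbv : VN V b b := VN.self (hFM hb)
  have hcv : VN V c c := VN.self (hFM hc)
  have hdv : VN V d d := VN.self (hFM hd)
  have hU : fU P y ≠ 0 := by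
    have h := poly_ne hy (X + C P.u) (X_add_C_ne_zero _)
    simpa [fU] using h
  have hV : fV P y ≠ 0 := by
    have h := poly_ne hy (X + C P.v) (X_add_C_ne_zero _)
    simpa [fV] using h
  have hA : (kd P y).A ≠ 0 := by
    change algebraMap ℂ N P.P0 / fU P y ≠ 0
    exact div_ne_zero ((_root_.map_ne_zero _).2 h0) hU
  have hB : 1 + (kd P y).B ≠ 0 := by
    change 1 + algebraMap ℂ N P.P2 / fV P y ≠ 0
    intro h1
    apply fV_add_ne (P := P) hy P.P2
    field_simp at h1
    linear_combination h1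
  obtain ⟨A, hAe⟩ : ∃ A, A = (kd P y).A := ⟨_, rfl⟩
  obtain ⟨B, hBe⟩ : ∃ B, B = (kd P y).B := ⟨_, rfl⟩
  rw [← hAe] at h4 h3 h33 hA
  rw [← hBe] at h33 hB
  -- `d = 0`
  have d0 : d = 0 := by
    have e : a * k + b * k * k + c * (w 3 / k) * k * k + d * (k * w 4) = 0 := by
      have : c * (w 3 / k) * k * k = c * w 3 * k := by field_simp
      rw [this]
      linear_combination k * h
    have v := (((hav.mul hkv).add ((hbv.mul hkv).mul hkv)).add (((hcv.mul h3).mul hkv).mul hkv)).add
      (hdv.mul h4)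
    have v0 := v.eq_zero e
    have : d * A = 0 := by linear_combination -v0
    exact (mul_eq_zero.1 this).resolve_right hA
  rw [d0, zero_mul, add_zero] at h
  have a0 : a = 0 := by
    have e : a + b * k + c * (w 3 / k) * k = 0 := by
      have : c * (w 3 / k) * k = c * w 3 := by field_simp
      rw [this]
      exact h
    have v := (hav.add (hbv.mul hkv)).add ((hcv.mul h3).mul hkv)
    have v0 := v.eq_zero e
    linear_combination v0
  rw [a0, zero_add] at h
  have b0 : b = c * A := by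
    have e : b + c * (w 3 / k) = 0 := by
      have : c * (w 3 / k) = c * w 3 / k := by ring
      rw [this]
      field_simp
      linear_combination h
    have v0 := (hbv.add (hcv.mul h3)).eq_zero e
    linear_combination v0
  have c0 : c = 0 := by
    have e : c * ((w 3 / k + A) / k) = 0 := by
      field_simp
      rw [b0] at h
      linear_combination h
    have v0 := (hcv.mul h33).eq_zero e
    exact (mul_eq_zero.1 v0).resolve_right hB
  exact ⟨a0, by rw [b0, c0, zero_mul], c0, d0⟩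

/-- **(LI)** `1, k, σ, τ` are linearly independent over the closed field of `y`. -/
theorem li (hGI : HGI P N) (h0 : P.P0 ≠ 0) {w : Fin 5 → N} (hw : GenS P w)
    {a b c d : N} (ha : a ∈ cl0 ({w 2} : Set N)) (hb : b ∈ cl0 ({w 2} : Set N))
    (hc : c ∈ cl0 ({w 2} : Set N)) (hd : d ∈ cl0 ({w 2} : Set N))
    (h : a + b * w 1 + c * w 3 + d * w 4 = 0) : a = 0 ∧ b = 0 ∧ c = 0 ∧ d = 0 := by
  have hyk := hw.ind_yk h0
  obtain ⟨M, V, w', hFM, hM, hw', e1, e2, hkv, h4, h3, h33⟩ := exists_et (P := P) h0 hyk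
  obtain ⟨g, hg1, hg2⟩ := hGI w w' hw hw' e2.symm
  have hk0 : w 1 ≠ 0 := by
    rintro h1
    have h2 := hyk.transcendental 1
    simp only [Matrix.cons_val_one, Matrix.cons_val_fin_one] at h2
    rw [h1] at h2
    exact h2 isAlgebraic_zero
  have h' := congrArg g h
  rw [map_zero, map_add, map_add, map_add, map_mul, map_mul, map_mul, hg1 a ha, hg1 b hb, hg1 c hc,
    hg1 d hd, hg2, hg2, hg2, e1] at h'
  exact li0 (P := P) hk0 (trans_y h0 hw) hFM hkv h4 h3 h33 h0 ha hb hc hd h'

end Vale.Agent.P297.Z2K
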