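import Vale.Agent.P297.H288.K2.F2

/-!
The leading coefficients of the two forms of the chords through a generic point; the lines on the
cubic surface `l = ∞`.
-/

set_option linter.unusedSectionVars false
set_option linter.style.haveILetI false
set_option linter.unusedSimpArgs false

open IntermediateField Polynomial

namespace Vale.Agent.P297.Z2K

open Vale.Agent.P297 Vale.Agent.P297.Gen Vale.Agent.P297.H72 Vale.Agent.P297.H521
open Vale.Agent.P297.H160.Z2Irr Vale.Agent.P297.H279.K2 Vale.Agent.P297.H288.K2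

variable {N : Type} [Field N] [Algebra ℂ N]

section tr

variable {P : Par} (g : N ≃ₐ[ℂ] N) {y : N}

theorem tr_kd : (kd P y).map ((g : N →ₐ[ℂ] N) : N →+* N) = kd P (g y) :=
  map_kd P (g : N →ₐ[ℂ] N) y

theorem tr_vec {w w' : Fin 5 → N} (hg : ∀ j, g (w j) = w' j) :
    (fun i => g (vec w i)) = vec w' := by
  funext i
  fin_cases i
  · exact map_one g
  · exact hg 1
  · exact hg 3
  · exact hg 4

theorem tr_gam (α β : N) : (fun i => g ((kd P y).gam α β i)) = (kd P (g y)).gam (g α) (g β) := by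
  have h := KD.map_gam (kd P y) ((g : N →ₐ[ℂ] N) : N →+* N) α β
  rw [tr_kd] at h
  exact h

theorem tr_g9 (x z : Fin 4 → N) : g ((kd P y).g9 x z) =
    (kd P (g y)).g9 (fun i => g (x i)) (fun i => g (z i)) := by
  have h := KD.map_g9 (kd P y) ((g : N →ₐ[ℂ] N) : N →+* N) x z
  rw [tr_kd] at h
  exact h

theorem tr_C1 (x z : Fin 4 → N) : g ((kd P y).C1 x z) =
    (kd P (g y)).C1 (fun i => g (x i)) (fun i => g (z i)) := by
  have h := KD.map_C1 (kd P y) ((g : N →ₐ[ℂ] N) : N →+* N) x z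
  rw [tr_kd] at h
  exact h

theorem tr_Q (x : Fin 4 → N) : g ((kd P y).Q x) = (kd P (g y)).Q (fun i => g (x i)) := by
  have h := KD.map_Q (kd P y) ((g : N →ₐ[ℂ] N) : N →+* N) x
  rw [tr_kd] at h
  exact h

theorem tr_b (x z : Fin 4 → N) : g ((kd P y).b x z) =
    (kd P (g y)).b (fun i => g (x i)) (fun i => g (z i)) := by
  have h := KD.map_b (kd P y) ((g : N →ₐ[ℂ] N) : N →+* N) x z
  rw [tr_kd] at h
  exact h

theorem tr_zz (x z : Fin 4 → N) : (fun i => g ((kd P y).zz x z i)) =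
    (kd P (g y)).zz (fun i => g (x i)) (fun i => g (z i)) := by
  have h := KD.map_zz (kd P y) ((g : N →ₐ[ℂ] N) : N →+* N) x z
  rw [tr_kd] at h
  exact h

end tr

variable [IsAlgClosed N] {P : Par}

/-- The polar form at `t = ∞`. -/
theorem lead_b (hGI : HGI P N) (h0 : P.P0 ≠ 0) {w : Fin 5 → N} (hw : GenS P w) :
    (kd P (w 2)).b (vec w) ((kd P (w 2)).gam 0 1) ≠ 0 := by
  have hy := trans_y h0 hw
  have hyF : w 2 ∈ cl0 ({w 2} : Set N) := subset_cl0 _ rfl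
  have mV : (kd P (w 2)).V ∈ cl0 ({w 2} : Set N) := mem_fV hyF
  have mc : (kd P (w 2)).c ∈ cl0 ({w 2} : Set N) := mem_fc hyF
  have mA : (kd P (w 2)).A ∈ cl0 ({w 2} : Set N) := mem_A hyF
  have mB : (kd P (w 2)).B ∈ cl0 ({w 2} : Set N) := mem_B hyF
  have me : (kd P (w 2)).e ∈ cl0 ({w 2} : Set N) := mem_f2 hyF
  have mm : (kd P (w 2)).m ∈ cl0 ({w 2} : Set N) := mem_f3 hyF
  have m2 : (2 : N) ∈ cl0 ({w 2} : Set N) := two_mem'
  have l1 := lead1_ne (P := P) hy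
  have hV := V_ne' (P := P) hy
  intro h
  rw [KD.b_eq] at h
  obtain ⟨γ, hγ⟩ : ∃ γ, γ = (kd P (w 2)).gam 0 1 := ⟨_, rfl⟩
  have γ0 : γ 0 = 0 := by rw [hγ]; simp [KD.gam]
  have γ1 : γ 1 = -(kd P (w 2)).V ^ 2 := by rw [hγ]; simp [KD.gam]
  have γ2 : γ 2 = (kd P (w 2)).c * (kd P (w 2)).V := by rw [hγ]; simp [KD.gam]
  have γ3 : γ 3 = 0 := by rw [hγ]; simp [KD.gam]
  have mγ : ∀ i, γ i ∈ cl0 ({w 2} : Set N) := by
    intro i
    fin_cases i
    · exact γ0 ▸ zero_mem _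
    · exact γ1 ▸ neg_mem (pow_mem mV 2)
    · exact γ2 ▸ mul_mem mc mV
    · exact γ3 ▸ zero_mem _
  rw [← hγ] at h
  have n0 : KD.g0 (kd P (w 2)) γ ∈ cl0 ({w 2} : Set N) :=
    sub_mem (mul_mem mm (sub_mem (add_mem (mγ 2) (mul_mem (add_mem (add_mem (one_mem _) mA) mB)
      (mγ 1))) (mul_mem (mul_mem m2 mA) (mγ 0))))
      (mul_mem me (add_mem (sub_mem (mul_mem (mul_mem (neg_mem m2) mB) (mγ 2))
        (mul_mem (mul_mem (mul_mem m2 mA) mB) (mγ 1))) (mul_mem (mul_mem m2 (pow_mem mA 2))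
        (mγ 0))))
  have n1 : KD.g1 (kd P (w 2)) γ ∈ cl0 ({w 2} : Set N) :=
    sub_mem (mul_mem mm (sub_mem (add_mem (neg_mem (mγ 3)) (mul_mem (add_mem (add_mem (one_mem _)
      mA) mB) (mγ 0))) (mul_mem (mul_mem m2 mB) (mγ 1))))
      (mul_mem me (add_mem (sub_mem (mul_mem (mul_mem m2 mA) (mγ 3))
        (mul_mem (mul_mem (mul_mem m2 mA) mB) (mγ 0))) (mul_mem (mul_mem m2 (pow_mem mB 2))
        (mγ 1))))
  have n2 : KD.g2 (kd P (w 2)) γ ∈ cl0 ({w 2} : Set N) :=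
    sub_mem (mul_mem mm (mγ 0)) (mul_mem me (sub_mem (mγ 3) (mul_mem (mul_mem m2 mB) (mγ 0))))
  have n3 : KD.g3 (kd P (w 2)) γ ∈ cl0 ({w 2} : Set N) :=
    sub_mem (mul_mem (neg_mem mm) (mγ 1))
      (mul_mem me (add_mem (mγ 2) (mul_mem (mul_mem m2 mA) (mγ 1))))
  have hx : vec w 0 = 1 ∧ vec w 1 = w 1 ∧ vec w 2 = w 3 ∧ vec w 3 = w 4 := ⟨rfl, rfl, rfl, rfl⟩
  rw [hx.1, hx.2.1, hx.2.2.1, hx.2.2.2, mul_one] at h
  obtain ⟨-, -, -, l3⟩ := li hGI h0 hw n0 n1 n2 n3 h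
  apply mul_ne_zero hV l1
  rw [← l3, KD.g3, γ1, γ2]
  ring

/-- The data at the place `k → 0`. -/
structure PV {M : IntermediateField ℂ N} (V : Plc M N) (D : KD N) (k T S : N) : Prop where
  hU : VN V D.U D.U
  hV : VN V D.V D.V
  ha : VN V D.a D.a
  hc : VN V D.c D.c
  hA : VN V D.A D.A
  hB : VN V D.B D.B
  he : VN V D.e D.e
  hm : VN V D.m D.m
  hk : VN V k 0
  hT : VN V T (-D.A)
  hS : VN V S (-D.A)

section pv

variable {M : IntermediateField ℂ N} {V : Plc M N} {D : KD N} {k τ T S : N}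

theorem PV.L (h : PV V D k T S) (hτ : τ * k = T) :
    VN V (k * D.L ![1, k, S * k, τ]) (-(D.A * D.U ^ 2)) := by
  obtain ⟨hU, hV, ha, hc, hA, hB, he, hm, hk, hT, hS⟩ := h
  have e : k * D.L ![1, k, S * k, τ] = D.U ^ 2 * T - D.V ^ 2 * (S * k) * k - D.a * D.U * k -
      D.c * D.V * k * k := by
    rw [← hτ]
    simp only [KD.L, Matrix.cons_val_zero, Matrix.cons_val_one, Matrix.cons_val]
    ring
  rw [e]
  refine VN.cast (a := _) (by
      repeat' (first | assumption | exact VN.one | exact VN.zero | exact VN.const _ |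
        exact VN.ofNat _ | apply VN.add | apply VN.sub | apply VN.mul | apply VN.neg | apply VN.pow)) ?_
  ring

theorem PV.b_inf (h : PV V D k T S) (hτ : τ * k = T) :
    VN V (k * D.b ![1, k, S * k, τ] (D.gam 0 1))
      (-(D.A * D.V * (D.m * D.V - D.e * D.c + 2 * D.e * D.A * D.V))) := by
  obtain ⟨hU, hV, ha, hc, hA, hB, he, hm, hk, hT, hS⟩ := h
  have e : k * D.b ![1, k, S * k, τ] (D.gam 0 1) =
      (D.m * (D.c * D.V - (1 + D.A + D.B) * D.V ^ 2) + D.m * (2 * D.B * k * D.V ^ 2) +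
        D.e * (2 * D.B * (D.c * D.V)) - D.e * (2 * D.A * D.B * D.V ^ 2) +
        D.e * (2 * D.B ^ 2 * k * D.V ^ 2)) * k +
        (D.m * D.V ^ 2 - D.e * (D.c * D.V) + D.e * (2 * D.A * D.V ^ 2)) * T := by
    rw [← hτ]
    simp only [KD.b, KD.b2, KD.b3, KD.gam, Matrix.cons_val_zero, Matrix.cons_val_one,
      Matrix.cons_val]
    ring
  rw [e]
  refine VN.cast (a := _) (by
      repeat' (first | assumption | exact VN.one | exact VN.zero | exact VN.const _ |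
        exact VN.ofNat _ | apply VN.add | apply VN.sub | apply VN.mul | apply VN.neg | apply VN.pow)) ?_
  ring

theorem PV.C1_inf (h : PV V D k T S) (hτ : τ * k = T) :
    VN V (k ^ 2 * D.C1 ![1, k, S * k, τ] (D.gam 0 1)) (D.A ^ 2 * D.U ^ 2 * D.V ^ 2) := by
  have hL := h.L hτ
  obtain ⟨hU, hV, ha, hc, hA, hB, he, hm, hk, hT, hS⟩ := h
  obtain ⟨l, hl⟩ : ∃ l, l = k * D.L ![1, k, S * k, τ] := ⟨_, rfl⟩
  rw [← hl] at hL
  have e : k ^ 2 * D.C1 ![1, k, S * k, τ] (D.gam 0 1) =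
      D.e * (-(2 * T * D.V ^ 2 * k ^ 2) - D.c * D.V * k ^ 2) +
        (D.c * D.V * k + D.V ^ 2 * T - (1 + D.A + D.B) * D.V ^ 2 * k +
          2 * D.B * k * D.V ^ 2 * k) * l := by
    rw [hl, KD.C1, KD.L_gam, mul_zero, add_zero, ← hτ]
    obtain ⟨l', hl'⟩ : ∃ l', l' = D.L ![1, k, S * k, τ] := ⟨_, rfl⟩
    rw [← hl']
    simp only [KD.C31, KD.b2, KD.gam, Matrix.cons_val_zero, Matrix.cons_val_one, Matrix.cons_val]
    ring
  rw [e]
  refine VN.cast (a := _) (by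
      repeat' (first | assumption | exact VN.one | exact VN.zero | exact VN.const _ |
        exact VN.ofNat _ | apply VN.add | apply VN.sub | apply VN.mul | apply VN.neg | apply VN.pow)) ?_
  ring

theorem PV.C1_inf' (h : PV V D k T S) (hτ : τ * k = T) :
    VN V (k * D.C1 (D.gam 0 1) ![1, k, S * k, τ])
      (-(D.A * D.V ^ 4 * (D.e - D.B * D.U ^ 2))) := by
  have hL := h.L hτ
  obtain ⟨hU, hV, ha, hc, hA, hB, he, hm, hk, hT, hS⟩ := h
  obtain ⟨l, hl⟩ : ∃ l, l = k * D.L ![1, k, S * k, τ] := ⟨_, rfl⟩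
  rw [← hl] at hL
  have e : k * D.C1 (D.gam 0 1) ![1, k, S * k, τ] =
      D.e * (T * D.V ^ 4) - D.B * D.V ^ 4 * l := by
    rw [hl, KD.C1, KD.L_gam, mul_zero, add_zero, ← hτ]
    obtain ⟨l', hl'⟩ : ∃ l', l' = D.L ![1, k, S * k, τ] := ⟨_, rfl⟩
    rw [← hl']
    simp only [KD.C31, KD.Q2, KD.gam, Matrix.cons_val_zero, Matrix.cons_val_one, Matrix.cons_val]
    ring
  rw [e]
  refine VN.cast (a := _) (by
      repeat' (first | assumption | exact VN.one | exact VN.zero | exact VN.const _ |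
        exact VN.ofNat _ | apply VN.add | apply VN.sub | apply VN.mul | apply VN.neg | apply VN.pow)) ?_
  ring

theorem PV.g9_inf (h : PV V D k T S) (hτ : τ * k = T) :
    VN V (k ^ 2 * D.g9 ![1, k, S * k, τ] (D.gam 0 1))
      (D.A ^ 2 * D.V ^ 5 * D.e * ((D.m + 2 * D.e * D.A) * D.V - 2 * D.A * D.B * D.U ^ 2 * D.V -
        D.e * D.c + D.c * D.B * D.U ^ 2 + D.B ^ 2 * D.U ^ 2 * D.V)) := by
  have hb := h.b_inf hτ
  have h1 := h.C1_inf hτ
  have h2 := h.C1_inf' hτ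
  have hQe : D.Q (D.gam 0 1) = -(D.B * D.V ^ 4 * (D.m + D.e * D.B)) := by
    simp only [KD.Q, KD.Q2, KD.Q3, KD.gam, Matrix.cons_val_zero, Matrix.cons_val_one,
      Matrix.cons_val]
    ring
  have hQ : VN V (D.Q (D.gam 0 1)) (-(D.B * D.V ^ 4 * (D.m + D.e * D.B))) := by
    rw [hQe]
    exact (((h.hB).mul (h.hV.pow 4)).mul (h.hm.add (h.he.mul h.hB))).neg
  have e : k ^ 2 * D.g9 ![1, k, S * k, τ] (D.gam 0 1) =
      k * D.b ![1, k, S * k, τ] (D.gam 0 1) * (k * D.C1 (D.gam 0 1) ![1, k, S * k, τ]) -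
      D.Q (D.gam 0 1) * (k ^ 2 * D.C1 ![1, k, S * k, τ] (D.gam 0 1)) := by
    rw [KD.g9]
    ring
  rw [e]
  refine VN.cast ((hb.mul h2).sub (hQ.mul h1)) ?_
  ring

end pv

theorem pv_of {y k : N} {M : IntermediateField ℂ N} {V : Plc M N} {w : Fin 5 → N}
    (hFM : cl0 {y} ≤ M) (hkv : VN V k 0)
    (h4 : VN V (k * w 4) (-(kd P y).A)) (h3 : VN V (w 3 / k) (-(kd P y).A)) :
    PV V (kd P y) k (w 4 * k) (w 3 / k) := by
  have hyM : y ∈ M := hFM (subset_cl0 _ rfl)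
  exact ⟨VN.self (mem_fU hyM), VN.self (mem_fV hyM), VN.self (mem_fa hyM), VN.self (mem_fc hyM),
    VN.self (mem_A hyM), VN.self (mem_B hyM), VN.self (mem_f2 hyM), VN.self (mem_f3 hyM), hkv,
    by rw [mul_comm]; exact h4, h3⟩

theorem vec_et {k : N} {w : Fin 5 → N} (hk0 : k ≠ 0) (hw1 : w 1 = k) :
    vec w = ![1, k, w 3 / k * k, w 4] := by
  rw [div_mul_cancel₀ _ hk0, ← hw1]
  rfl

/-- The form of the chords at `t = ∞`, at the special point. -/
theorem lead_g9_et {y k : N} {M : IntermediateField ℂ N} {V : Plc M N} {w : Fin 5 → N}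
    (hk0 : k ≠ 0) (hy : Transcendental ℂ y) (hFM : cl0 {y} ≤ M) (h0 : P.P0 ≠ 0)
    (hw1 : w 1 = k) (hkv : VN V k 0)
    (h4 : VN V (k * w 4) (-(kd P y).A)) (h3 : VN V (w 3 / k) (-(kd P y).A)) :
    (kd P y).g9 (vec w) ((kd P y).gam 0 1) ≠ 0 := by
  rw [vec_et hk0 hw1]
  have v := (pv_of (P := P) hFM hkv h4 h3).g9_inf rfl
  exact right_ne_zero_of_mul (v.ne_zero (mul_ne_zero (mul_ne_zero (mul_ne_zero
    (pow_ne_zero 2 (A_ne h0 hy)) (pow_ne_zero 5 (V_ne' hy))) (e_ne hy)) (lead2_ne hy)))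

/-- **The leading coefficients** (the point `t = ∞` of the nodal cubic). -/
theorem lead (hGI : HGI P N) (h0 : P.P0 ≠ 0) {w : Fin 5 → N} (hw : GenS P w) :
    (kd P (w 2)).b (vec w) ((kd P (w 2)).gam 0 1) ≠ 0 ∧
      (kd P (w 2)).g9 (vec w) ((kd P (w 2)).gam 0 1) ≠ 0 := by
  refine ⟨lead_b hGI h0 hw, ?_⟩
  have hyk := hw.ind_yk h0
  obtain ⟨M, V, w', hFM, hM, hw', e1, e2, hkv, h4, h3, h33⟩ := exists_et (P := P) h0 hyk
  obtain ⟨g, hg1, hg2⟩ := hGI w w' hw hw' e2.symm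
  have hk0 : w 1 ≠ 0 := by
    rintro h1
    have h2 := hyk.transcendental 1
    simp only [Matrix.cons_val_one, Matrix.cons_val_fin_one] at h2
    rw [h1] at h2
    exact h2 isAlgebraic_zero
  intro h
  have hgy : g (w 2) = w 2 := hg1 _ (subset_cl0 _ rfl)
  have h' := congrArg g h
  rw [map_zero, tr_g9, tr_vec g hg2, tr_gam, hgy, map_zero, map_one] at h'
  exact lead_g9_et hk0 (trans_y h0 hw) hFM h0 e1 hkv h4 h3 h'

end Vale.Agent.P297.Z2K
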