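import Vale.Agent.P297.H288.K2.Inf

/-!
Expressions in `y` which are not zero; the points of the nodal cubic are not vertices of the
quadric.
-/

set_option linter.unusedSectionVars false
set_option linter.style.haveILetI false
set_option linter.unusedSimpArgs false

open IntermediateField Polynomial

namespace Vale.Agent.P297.Z2K

open Vale.Agent.P297 Vale.Agent.P297.Gen Vale.Agent.P297.H72 Vale.Agent.P297.H521
open Vale.Agent.P297.H160.Z2Irr Vale.Agent.P297.H279.K2 Vale.Agent.P297.H288.K2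

namespace KD

variable {R : Type*} [CommRing R] (D : KD R)

/-- the gradient of the quadric -/
def g0 (w : Fin 4 → R) : R := D.m * (w 2 + (1 + D.A + D.B) * w 1 - 2 * D.A * w 0) -
  D.e * (-2 * D.B * w 2 - 2 * D.A * D.B * w 1 + 2 * D.A ^ 2 * w 0)

def g1 (w : Fin 4 → R) : R := D.m * (-w 3 + (1 + D.A + D.B) * w 0 - 2 * D.B * w 1) -
  D.e * (2 * D.A * w 3 - 2 * D.A * D.B * w 0 + 2 * D.B ^ 2 * w 1)

def g2 (w : Fin 4 → R) : R := D.m * w 0 - D.e * (w 3 - 2 * D.B * w 0)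

def g3 (w : Fin 4 → R) : R := -D.m * w 1 - D.e * (w 2 + 2 * D.A * w 1)

theorem b_eq (v w : Fin 4 → R) :
    D.b v w = g0 D w * v 0 + g1 D w * v 1 + g2 D w * v 2 + g3 D w * v 3 := by
  simp only [KD.b, KD.b2, KD.b3, g0, g1, g2, g3]
  ring

end KD

variable {N : Type} [Field N] [Algebra ℂ N] [IsAlgClosed N] {P : Par} {y : N}

theorem neg_one_ne : (-1 : N) ≠ 0 := neg_ne_zero.2 one_ne_zero

theorem e_ne (hy : Transcendental ℂ y) : (kd P y).e ≠ 0 := by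
  obtain ⟨M, V, hz, hy0, hU, hV, ha, hc, hA, hB, he, hm, hd⟩ := exists_inf hy P
  intro h
  refine he.ne_zero neg_one_ne ?_
  rw [h, zero_mul]

theorem mAe_ne (hy : Transcendental ℂ y) : (kd P y).m + (kd P y).A * (kd P y).e ≠ 0 := by
  obtain ⟨M, V, hz, hy0, hU, hV, ha, hc, hA, hB, he, hm, hd⟩ := exists_inf hy P
  intro h
  have hyz := mul_inv_cancel₀ hy0
  obtain ⟨z, hze⟩ : ∃ z, z = y⁻¹ := ⟨_, rfl⟩
  obtain ⟨D, hD⟩ : ∃ D, D = kd P y := ⟨_, rfl⟩
  rw [← hD] at h hU hV ha hc hA hB he hm hd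
  rw [← hze] at hz hyz hU hV ha hc he hm hd
  have v : VN V (D.m * z ^ 2 + D.A * y * (D.e * z ^ 2) * z) (-1) :=
    VN.cast (hm.add ((hA.mul he).mul hz)) (by ring)
  refine v.ne_zero neg_one_ne ?_
  linear_combination z ^ 2 * h + D.A * D.e * z ^ 2 * hyz

theorem mBe_ne (hy : Transcendental ℂ y) : (kd P y).m + (kd P y).B * (kd P y).e ≠ 0 := by
  obtain ⟨M, V, hz, hy0, hU, hV, ha, hc, hA, hB, he, hm, hd⟩ := exists_inf hy P
  intro h
  have hyz := mul_inv_cancel₀ hy0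
  obtain ⟨z, hze⟩ : ∃ z, z = y⁻¹ := ⟨_, rfl⟩
  obtain ⟨D, hD⟩ : ∃ D, D = kd P y := ⟨_, rfl⟩
  rw [← hD] at h hU hV ha hc hA hB he hm hd
  rw [← hze] at hz hyz hU hV ha hc he hm hd
  have v : VN V (D.m * z ^ 2 + D.B * y * (D.e * z ^ 2) * z) (-1) :=
    VN.cast (hm.add ((hB.mul he).mul hz)) (by ring)
  refine v.ne_zero neg_one_ne ?_
  linear_combination z ^ 2 * h + D.B * D.e * z ^ 2 * hyz

theorem A_ne (h0 : P.P0 ≠ 0) (hy : Transcendental ℂ y) : (kd P y).A ≠ 0 := by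
  obtain ⟨M, V, hz, hy0, hU, hV, ha, hc, hA, hB, he, hm, hd⟩ := exists_inf hy P
  intro h
  refine hA.ne_zero ((_root_.map_ne_zero _).2 h0) ?_
  rw [h, zero_mul]

theorem B_ne (h2 : P.P2 ≠ 0) (hy : Transcendental ℂ y) : (kd P y).B ≠ 0 := by
  obtain ⟨M, V, hz, hy0, hU, hV, ha, hc, hA, hB, he, hm, hd⟩ := exists_inf hy P
  intro h
  refine hB.ne_zero ((_root_.map_ne_zero _).2 h2) ?_
  rw [h, zero_mul]

theorem U_ne' (hy : Transcendental ℂ y) : (kd P y).U ≠ 0 := by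
  obtain ⟨M, V, hz, hy0, hU, hV, ha, hc, hA, hB, he, hm, hd⟩ := exists_inf hy P
  intro h
  refine hU.ne_zero one_ne_zero ?_
  rw [h, zero_mul]

theorem V_ne' (hy : Transcendental ℂ y) : (kd P y).V ≠ 0 := by
  obtain ⟨M, V, hz, hy0, hU, hV, ha, hc, hA, hB, he, hm, hd⟩ := exists_inf hy P
  intro h
  refine hV.ne_zero one_ne_zero ?_
  rw [h, zero_mul]

theorem a_ne' (hy : Transcendental ℂ y) : (kd P y).a ≠ 0 := by
  obtain ⟨M, V, hz, hy0, hU, hV, ha, hc, hA, hB, he, hm, hd⟩ := exists_inf hy P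
  intro h
  have h2 : (2 : N) ≠ 0 := by
    haveI : CharZero N := charZero_of_injective_algebraMap (algebraMap ℂ N).injective
    exact two_ne_zero
  refine ha.ne_zero h2 ?_
  rw [h, zero_mul]

/-- the coefficient of `τ` in the polar form at `t = ∞` -/
theorem lead1_ne (hy : Transcendental ℂ y) : (kd P y).m * (kd P y).V -
    (kd P y).e * (kd P y).c + 2 * (kd P y).e * (kd P y).A * (kd P y).V ≠ 0 := by
  obtain ⟨M, V, hz, hy0, hU, hV, ha, hc, hA, hB, he, hm, hd⟩ := exists_inf hy P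
  intro h
  have hyz := mul_inv_cancel₀ hy0
  obtain ⟨z, hze⟩ : ∃ z, z = y⁻¹ := ⟨_, rfl⟩
  obtain ⟨D, hD⟩ : ∃ D, D = kd P y := ⟨_, rfl⟩
  rw [← hD] at h hU hV ha hc hA hB he hm hd
  rw [← hze] at hz hyz hU hV ha hc he hm hd
  have v : VN V (D.m * z ^ 2 * (D.V * z) - D.e * z ^ 2 * (D.c * z) +
      2 * (D.e * z ^ 2) * (D.A * y) * (D.V * z) * z) 1 := by
    refine VN.cast (a := _) (by
        repeat' (first | assumption | exact VN.one | exact VN.zero | exact VN.const _ |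
          exact VN.ofNat _ | apply VN.add | apply VN.sub | apply VN.mul | apply VN.neg | apply VN.pow)) ?_
    ring
  refine v.ne_zero one_ne_zero ?_
  linear_combination z ^ 3 * h + 2 * D.e * D.A * D.V * z ^ 3 * hyz

/-- the value of `g9` at `t = ∞` and `k → 0` -/
theorem lead2_ne (hy : Transcendental ℂ y) : ((kd P y).m + 2 * (kd P y).e * (kd P y).A) *
    (kd P y).V - 2 * (kd P y).A * (kd P y).B * (kd P y).U ^ 2 * (kd P y).V -
    (kd P y).e * (kd P y).c + (kd P y).c * (kd P y).B * (kd P y).U ^ 2 +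
    (kd P y).B ^ 2 * (kd P y).U ^ 2 * (kd P y).V ≠ 0 := by
  obtain ⟨M, V, hz, hy0, hU, hV, ha, hc, hA, hB, he, hm, hd⟩ := exists_inf hy P
  intro h
  have hyz := mul_inv_cancel₀ hy0
  obtain ⟨z, hze⟩ : ∃ z, z = y⁻¹ := ⟨_, rfl⟩
  obtain ⟨D, hD⟩ : ∃ D, D = kd P y := ⟨_, rfl⟩
  rw [← hD] at h hU hV ha hc hA hB he hm hd
  rw [← hze] at hz hyz hU hV ha hc he hm hd
  have v : VN V ((D.m * z ^ 2 + 2 * (D.e * z ^ 2) * (D.A * y) * z) * (D.V * z) -
      2 * (D.A * y) * (D.B * y) * (D.U * z) ^ 2 * (D.V * z) * z ^ 2 -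
      D.e * z ^ 2 * (D.c * z) + D.c * z * (D.B * y) * (D.U * z) ^ 2 * z +
      (D.B * y) ^ 2 * (D.U * z) ^ 2 * (D.V * z) * z ^ 2) 1 := by
    refine VN.cast (a := _) (by
        repeat' (first | assumption | exact VN.one | exact VN.zero | exact VN.const _ |
          exact VN.ofNat _ | apply VN.add | apply VN.sub | apply VN.mul | apply VN.neg | apply VN.pow)) ?_
    ring
  refine v.ne_zero one_ne_zero ?_
  linear_combination z ^ 3 * h + (2 * D.e * D.A * D.V * z ^ 3 -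
    2 * D.A * D.B * D.U ^ 2 * D.V * z ^ 3 * (y * z + 1) + D.c * D.B * D.U ^ 2 * z ^ 3 +
    D.B ^ 2 * D.U ^ 2 * D.V * z ^ 3 * (y * z + 1)) * hyz

/-- The first condition for a vertex on the nodal cubic. -/
theorem vertex1 (hy : Transcendental ℂ y)
    (h : (-(kd P y).m ^ 2 + (kd P y).m * (kd P y).e * (1 - (kd P y).A - (kd P y).B) -
      2 * (kd P y).A * (kd P y).B * (kd P y).e ^ 2) * ((kd P y).m + 2 * (kd P y).A * (kd P y).e) +
      2 * (kd P y).A * (kd P y).e * ((kd P y).m + (kd P y).A * (kd P y).e) *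
      ((kd P y).m + 2 * (kd P y).B * (kd P y).e) = 0) : P.P1 - P.M1 = 2 * P.P0 := by
  obtain ⟨M, V, hz, hy0, hU, hV, ha, hc, hA, hB, he, hm, hd⟩ := exists_inf hy P
  have hyz := mul_inv_cancel₀ hy0
  obtain ⟨z, hze⟩ : ∃ z, z = y⁻¹ := ⟨_, rfl⟩
  obtain ⟨D, hD⟩ : ∃ D, D = kd P y := ⟨_, rfl⟩
  rw [← hD] at h hU hV ha hc hA hB he hm hd
  rw [← hze] at hz hyz hU hV ha hc he hm hd
  obtain ⟨A', hA'⟩ : ∃ A', A' = D.A * y := ⟨_, rfl⟩
  obtain ⟨B', hB'⟩ : ∃ B', B' = D.B * y := ⟨_, rfl⟩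
  obtain ⟨e', he'⟩ : ∃ e', e' = D.e * z ^ 2 := ⟨_, rfl⟩
  obtain ⟨m', hm'⟩ : ∃ m', m' = D.m * z ^ 2 := ⟨_, rfl⟩
  obtain ⟨d', hd'⟩ : ∃ d', d' = (D.m - D.e) * z := ⟨_, rfl⟩
  rw [← hA'] at hA
  rw [← hB'] at hB
  rw [← he'] at he
  rw [← hm'] at hm
  rw [← hd'] at hd
  have v : VN V ((-m' * d' - m' * e' * (A' + B') - 2 * A' * B' * e' ^ 2 * z) *
      (m' + 2 * A' * e' * z) + 2 * A' * e' * (m' + A' * e' * z) * (m' + 2 * B' * e' * z))
      (algebraMap ℂ N (-(P.M1 - P.P1 + 2 * P.P0))) := by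
    refine VN.cast (a := _) (by
        repeat' (first | assumption | exact VN.one | exact VN.zero | exact VN.const _ |
          exact VN.ofNat _ | apply VN.add | apply VN.sub | apply VN.mul | apply VN.neg | apply VN.pow)) ?_
    simp only [map_add, map_sub, map_neg, map_mul, map_ofNat]
    ring
  have e0 := v.eq_zero (by
    have h1 : (-m' * d' - m' * e' * (A' + B') - 2 * A' * B' * e' ^ 2 * z) *
        (m' + 2 * A' * e' * z) + 2 * A' * e' * (m' + A' * e' * z) * (m' + 2 * B' * e' * z) =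
        z ^ 5 * ((-D.m * (D.m - D.e) - D.m * D.e * (D.A + D.B) * (y * z) -
        2 * D.A * D.B * D.e ^ 2 * (y * z) ^ 2) * (D.m + 2 * D.A * D.e * (y * z)) +
        2 * D.A * D.e * (y * z) * (D.m + D.A * D.e * (y * z)) *
        (D.m + 2 * D.B * D.e * (y * z))) := by
      rw [hA', hB', he', hm', hd']
      ring
    rw [h1, hyz]
    linear_combination z ^ 5 * h)
  have e1 : -(P.M1 - P.P1 + 2 * P.P0) = 0 := (map_eq_zero (algebraMap ℂ N)).1 e0
  linear_combination e1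

/-- The second condition for a vertex on the nodal cubic. -/
theorem vertex2 (hy : Transcendental ℂ y)
    (h : (-(kd P y).m ^ 2 + (kd P y).m * (kd P y).e * (1 - (kd P y).A - (kd P y).B) -
      2 * (kd P y).A * (kd P y).B * (kd P y).e ^ 2) * ((kd P y).m + 2 * (kd P y).B * (kd P y).e) +
      2 * (kd P y).B * (kd P y).e * ((kd P y).m + (kd P y).B * (kd P y).e) *
      ((kd P y).m + 2 * (kd P y).A * (kd P y).e) = 0) : P.P1 - P.M1 = 2 * P.P2 := by
  obtain ⟨M, V, hz, hy0, hU, hV, ha, hc, hA, hB, he, hm, hd⟩ := exists_inf hy P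
  have hyz := mul_inv_cancel₀ hy0
  obtain ⟨z, hze⟩ : ∃ z, z = y⁻¹ := ⟨_, rfl⟩
  obtain ⟨D, hD⟩ : ∃ D, D = kd P y := ⟨_, rfl⟩
  rw [← hD] at h hU hV ha hc hA hB he hm hd
  rw [← hze] at hz hyz hU hV ha hc he hm hd
  obtain ⟨A', hA'⟩ : ∃ A', A' = D.A * y := ⟨_, rfl⟩
  obtain ⟨B', hB'⟩ : ∃ B', B' = D.B * y := ⟨_, rfl⟩
  obtain ⟨e', he'⟩ : ∃ e', e' = D.e * z ^ 2 := ⟨_, rfl⟩
  obtain ⟨m', hm'⟩ : ∃ m', m' = D.m * z ^ 2 := ⟨_, rfl⟩
  obtain ⟨d', hd'⟩ : ∃ d', d' = (D.m - D.e) * z := ⟨_, rfl⟩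
  rw [← hA'] at hA
  rw [← hB'] at hB
  rw [← he'] at he
  rw [← hm'] at hm
  rw [← hd'] at hd
  have v : VN V ((-m' * d' - m' * e' * (A' + B') - 2 * A' * B' * e' ^ 2 * z) *
      (m' + 2 * B' * e' * z) + 2 * B' * e' * (m' + B' * e' * z) * (m' + 2 * A' * e' * z))
      (algebraMap ℂ N (-(P.M1 - P.P1 + 2 * P.P2))) := by
    refine VN.cast (a := _) (by
        repeat' (first | assumption | exact VN.one | exact VN.zero | exact VN.const _ |
          exact VN.ofNat _ | apply VN.add | apply VN.sub | apply VN.mul | apply VN.neg | apply VN.pow)) ?_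
    simp only [map_add, map_sub, map_neg, map_mul, map_ofNat]
    ring
  have e0 := v.eq_zero (by
    have h1 : (-m' * d' - m' * e' * (A' + B') - 2 * A' * B' * e' ^ 2 * z) *
        (m' + 2 * B' * e' * z) + 2 * B' * e' * (m' + B' * e' * z) * (m' + 2 * A' * e' * z) =
        z ^ 5 * ((-D.m * (D.m - D.e) - D.m * D.e * (D.A + D.B) * (y * z) -
        2 * D.A * D.B * D.e ^ 2 * (y * z) ^ 2) * (D.m + 2 * D.B * D.e * (y * z)) +
        2 * D.B * D.e * (y * z) * (D.m + D.B * D.e * (y * z)) *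
        (D.m + 2 * D.A * D.e * (y * z))) := by
      rw [hA', hB', he', hm', hd']
      ring
    rw [h1, hyz]
    linear_combination z ^ 5 * h)
  have e1 : -(P.M1 - P.P1 + 2 * P.P2) = 0 := (map_eq_zero (algebraMap ℂ N)).1 e0
  linear_combination e1

end Vale.Agent.P297.Z2K
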