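import Vale.Agent.P297.H288.K2.Place

/-!
Values at a place of a field over a subfield, as elements of the field.
-/

set_option linter.unusedSectionVars false
set_option linter.style.haveILetI false
set_option linter.unusedSimpArgs false

open IntermediateField Polynomial

namespace Vale.Agent.P297.H288.K2

open Vale.Agent.P297 Vale.Agent.P297.Gen Vale.Agent.P297.H72 Vale.Agent.P297.H521

variable {N : Type} [Field N] [Algebra ℂ N] {M : IntermediateField ℂ N}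

/-- `x` has the value `a ∈ M` at the place. -/
def VN (V : Plc M N) (x a : N) : Prop := ∃ h : a ∈ M, V.Val x ⟨a, h⟩

variable {V : Plc M N} {x y a b : N}

theorem VN.mem (h : VN V x a) : a ∈ M := h.1

theorem VN.self (h : a ∈ M) : VN V a a := ⟨h, V.val_const ⟨a, h⟩⟩

theorem VN.add (h : VN V x a) (h' : VN V y b) : VN V (x + y) (a + b) := by
  obtain ⟨h1, h2⟩ := h
  obtain ⟨h3, h4⟩ := h'
  exact ⟨add_mem h1 h3, h2.add h4⟩

theorem VN.mul (h : VN V x a) (h' : VN V y b) : VN V (x * y) (a * b) := by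
  obtain ⟨h1, h2⟩ := h
  obtain ⟨h3, h4⟩ := h'
  exact ⟨mul_mem h1 h3, h2.mul h4⟩

theorem VN.neg (h : VN V x a) : VN V (-x) (-a) := by
  obtain ⟨h1, h2⟩ := h
  exact ⟨neg_mem h1, h2.neg⟩

theorem VN.sub (h : VN V x a) (h' : VN V y b) : VN V (x - y) (a - b) := by
  rw [sub_eq_add_neg, sub_eq_add_neg]
  exact h.add h'.neg

theorem VN.inv (h : VN V x a) (ha : a ≠ 0) : VN V x⁻¹ a⁻¹ := by
  obtain ⟨h1, h2⟩ := h
  exact ⟨inv_mem h1, h2.inv fun h => ha (congrArg Subtype.val h)⟩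

theorem VN.div (h : VN V x a) (h' : VN V y b) (hb : b ≠ 0) : VN V (x / y) (a / b) := by
  rw [div_eq_mul_inv, div_eq_mul_inv]
  exact h.mul (h'.inv hb)

theorem VN.pow (h : VN V x a) (n : ℕ) : VN V (x ^ n) (a ^ n) := by
  obtain ⟨h1, h2⟩ := h
  exact ⟨pow_mem h1 n, h2.pow n⟩

theorem VN.unique (h : VN V x a) (h' : VN V x b) : a = b := by
  obtain ⟨h1, h2⟩ := h
  obtain ⟨h3, h4⟩ := h'
  exact congrArg Subtype.val (h2.unique h4)

theorem VN.zero : VN V (0 : N) 0 := VN.self (zero_mem M)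

theorem VN.one : VN V (1 : N) 1 := VN.self (one_mem M)

theorem VN.const (r : ℂ) : VN V (algebraMap ℂ N r) (algebraMap ℂ N r) :=
  VN.self (IntermediateField.algebraMap_mem M r)

theorem VN.ofNat (n : ℕ) [n.AtLeastTwo] : VN V (OfNat.ofNat n : N) (OfNat.ofNat n) := by
  have h := VN.const (V := V) (OfNat.ofNat n : ℂ)
  rwa [map_ofNat] at h

theorem VN.two : VN V (2 : N) 2 := VN.ofNat 2

theorem VN.cast (h : VN V x a) (e : a = b) : VN V x b := e ▸ h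

theorem VN.ne_zero (h : VN V x a) (ha : a ≠ 0) : x ≠ 0 := by
  rintro rfl
  exact ha (h.unique VN.zero)

/-- the value of a vanishing expression -/
theorem VN.eq_zero (h : VN V x a) (hx : x = 0) : a = 0 := by
  rw [hx] at h
  exact h.unique VN.zero

theorem VN.ex (h : VN V x a) : ∃ r : V.V, (r : N) = x ∧ ((V.p r : M) : N) = a := by
  obtain ⟨h1, h2, h3⟩ := h
  exact ⟨⟨x, h2⟩, rfl, by rw [h3]⟩

theorem VN.of (r : V.V) : VN V (r : N) ((V.p r : M) : N) := ⟨(V.p r).2, r.2, rfl⟩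

theorem vn_or (x : N) : (∃ a, VN V x a) ∨ (x ≠ 0 ∧ VN V x⁻¹ 0) := by
  by_cases hx : x = 0
  · exact Or.inl ⟨0, by rw [hx]; exact VN.zero⟩
  rcases V.val_or x with ⟨a, ha⟩ | h
  · exact Or.inl ⟨a, a.2, ha⟩
  · exact Or.inr ⟨hx, zero_mem M, h⟩

variable [IsAlgClosed N]

/-- **The small root** of a quartic whose constant coefficient tends to zero, and whose linear
coefficient does not. -/
theorem exists_small_root {a0 a1 a2 a3 a4 b1 b2 b3 b4 : N} (h0 : VN V a0 0) (h1 : VN V a1 b1)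
    (hb1 : b1 ≠ 0) (h2 : VN V a2 b2) (h3 : VN V a3 b3) (h4 : VN V a4 b4) :
    ∃ z, VN V z 0 ∧ a0 + a1 * z + a2 * z ^ 2 + a3 * z ^ 3 + a4 * z ^ 4 = 0 := by
  obtain ⟨h0m, h0v⟩ := h0
  obtain ⟨h1m, h1v⟩ := h1
  obtain ⟨h2m, h2v⟩ := h2
  obtain ⟨h3m, h3v⟩ := h3
  obtain ⟨h4m, h4v⟩ := h4
  let F : V.V[X] := C ⟨a0, h0v.mem⟩ + C ⟨a1, h1v.mem⟩ * X + C ⟨a2, h2v.mem⟩ * X ^ 2 +
    C ⟨a3, h3v.mem⟩ * X ^ 3 + C ⟨a4, h4v.mem⟩ * X ^ 4
  have e0 : V.p ⟨a0, h0v.mem⟩ = 0 := by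
    obtain ⟨h, hh⟩ := h0v
    exact hh
  have e1 : V.p ⟨a1, h1v.mem⟩ = ⟨b1, h1m⟩ := by
    obtain ⟨h, hh⟩ := h1v
    exact hh
  have hF : F.map V.p ≠ 0 := by
    intro h
    have h5 := congrArg (fun p : M[X] => p.coeff 1) h
    simp only [F, Polynomial.map_add, Polynomial.map_mul, Polynomial.map_pow, map_C, map_X,
      coeff_add, coeff_C_mul, coeff_X_pow, coeff_X_one, coeff_C, e1, coeff_zero] at h5
    norm_num at h5
    exact hb1 (congrArg Subtype.val h5)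
  obtain ⟨z, hz1, hz2⟩ := Plc.exists_root V V.V.subtype V.p (fun r => ⟨r.2, rfl⟩) F hF
    (a := 0) (by
      simp only [F, eval₂_add, eval₂_mul, eval₂_C, eval₂_X, eval₂_X_pow, e0, mul_zero, add_zero,
        ne_eq, OfNat.ofNat_ne_zero, not_false_eq_true, zero_pow])
  refine ⟨z, ⟨zero_mem M, hz1⟩, ?_⟩
  simp only [F, eval₂_add, eval₂_mul, eval₂_C, eval₂_X, eval₂_X_pow] at hz2
  exact hz2

end Vale.Agent.P297.H288.K2
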